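import Vale.Agent.P226.H700.Weak4
import Vale.Agent.P226.H757.Neg

set_option linter.all false

/-!
# P226, equality case: a maximiser has at most three cells with nonzero moment
-/

open MeasureTheory ProbabilityTheory Set
open scoped RealInnerProductSpace

namespace Vale.Agent.P226.Eqc

open K3

variable {E : Type*} [NormedAddCommGroup E] [InnerProductSpace ℝ E] [FiniteDimensional ℝ E]
  [MeasurableSpace E] [BorelSpace E]

/-- Merging the cells of a partition along a map of the index set. -/
def push {ι κ : Type*} (A : ι → Set E) (φ : ι → κ) (c : κ) : Set E :=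
  ⋃ j : {j : ι // φ j = c}, A j

lemma isPart_push {ι κ : Type*} [Countable ι] {A : ι → Set E} (h : IsPart A) (φ : ι → κ) :
    IsPart (push A φ) where
  meas c := MeasurableSet.iUnion fun j => h.meas j
  disj c d hcd := by
    unfold push
    refine disjoint_iUnion_left.2 fun i => disjoint_iUnion_right.2 fun j => h.disj ?_
    intro hij
    exact hcd (by rw [← i.2, ← j.2, hij])
  cover := by
    refine eq_univ_of_forall fun x => ?_
    have hx : x ∈ ⋃ i, A i := by rw [h.cover]; exact mem_univ x
    obtain ⟨i, hi⟩ := mem_iUnion.1 hx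
    exact mem_iUnion.2 ⟨φ i, mem_iUnion.2 ⟨⟨i, rfl⟩, hi⟩⟩

lemma fm_push {ι κ : Type*} [Fintype ι] [DecidableEq κ] {A : ι → Set E} (h : IsPart A)
    (φ : ι → κ) (c : κ) : fm (push A φ c) = ∑ j : {j : ι // φ j = c}, fm (A j) := by
  have h1 := integral_iUnion_fintype (μ := stdGaussian E) (f := fun x : E => x)
    (s := fun j : {j : ι // φ j = c} => A j) (fun j => h.meas j)
    (fun i j hij => h.disj fun hc => hij (Subtype.ext hc))
    fun i => integrable_id_stdGaussian.integrableOn
  exact h1

/-- **A maximiser has at most three cells with nonzero moment.** -/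
theorem IsMax.card_le_three {k : ℕ} {A : Fin k → Set E} (h : IsMax A)
    [DecidablePred fun i => fm (A i) ≠ 0] :
    (Finset.univ.filter fun i => fm (A i) ≠ 0).card ≤ 3 := by
  classical
  by_contra hc
  push Not at hc
  set S := Finset.univ.filter fun i => fm (A i) ≠ 0 with hS
  obtain ⟨m, hm⟩ : ∃ m, S.card = m + 4 := ⟨S.card - 4, by omega⟩
  let e : Fin (m + 4) ≃ S := (S.equivFinOfCardEq hm).symm
  let σ : Equiv.Perm (Fin (m + 4)) := Tuple.sort fun i => -‖fm (A (e i))‖
  have hσ : Monotone ((fun i => -‖fm (A (e i))‖) ∘ σ) := Tuple.monotone_sort _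
  let τ : Fin (m + 4) ≃ S := σ.trans e
  let φ : Fin k → Fin (m + 4) := fun j => if hj : j ∈ S then τ.symm ⟨j, hj⟩ else 0
  have hmemS : ∀ j, j ∈ S ↔ fm (A j) ≠ 0 := fun j => by rw [hS]; simp
  have hφ : ∀ i, φ (τ i) = i := by
    intro i
    simp only [φ]
    rw [dif_pos (τ i).2]
    simp
  let A' : Fin (m + 4) → Set E := push A φ
  have hA' : IsPart A' := isPart_push h.1 φ
  have hfm : ∀ i, fm (A' i) = fm (A (τ i)) := by
    intro i
    have h1 : fm (A' i) = ∑ j : {j : Fin k // φ j = i}, fm (A j) := fm_push h.1 φ i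
    rw [h1, Fintype.sum_eq_single (⟨(τ i : Fin k), hφ i⟩ : {j : Fin k // φ j = i})]
    intro j hj
    by_contra hne
    have hjS : (j : Fin k) ∈ S := (hmemS _).2 hne
    apply hj
    have h2 : φ j = i := j.2
    simp only [φ] at h2
    rw [dif_pos hjS] at h2
    apply Subtype.ext
    have h3 : (⟨(j : Fin k), hjS⟩ : S) = τ i := (Equiv.symm_apply_eq τ).1 h2
    exact congrArg (Subtype.val : S → Fin k) h3
  have hsum : ∑ i, ‖fm (A' i)‖ ^ 2 = 9 / (8 * Real.pi) := by
    rw [← h.2]
    simp_rw [hfm]
    rw [Equiv.sum_comp τ (fun s : S => ‖fm (A s)‖ ^ 2),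
      Finset.sum_coe_sort S (fun j => ‖fm (A j)‖ ^ 2)]
    refine Finset.sum_subset (Finset.subset_univ _) fun j _ hj => ?_
    have : fm (A j) = 0 := by
      by_contra hne
      exact hj ((hmemS j).2 hne)
    rw [this]
    simp
  let B : Wk.Bad E :=
    { m := m
      A := A'
      part := hA'
      big := hsum.ge
      obtuse := by
        intro i j hij
        rw [hfm, hfm]
        refine h.inner_neg (fun hc => hij (τ.injective (Subtype.ext hc)))
          ((hmemS _).1 (τ i).2) ((hmemS _).1 (τ j).2)
      anti := by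
        intro i j hij
        have := hσ hij
        simp only [Function.comp] at this
        simp only [hfm]
        exact neg_le_neg_iff.1 this }
  have hmax : IsMax A' := ⟨hA', hsum⟩
  exact B.false_of_argmax hmax.argmax

end Vale.Agent.P226.Eqc
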