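import Vale.Agent.P226.H757.Null

set_option linter.all false

/-!
# P226, equality case: the converse, and families which are partitions up to null sets
-/

open MeasureTheory ProbabilityTheory Set
open scoped RealInnerProductSpace

namespace Vale.Agent.P226.Eqc

open K3

variable {E : Type*} [NormedAddCommGroup E] [InnerProductSpace ℝ E] [FiniteDimensional ℝ E]
  [MeasurableSpace E] [BorelSpace E]

/-- The closed sector on which `u j` is the largest of the three forms. -/
def sector (u : Fin 3 → E) (j : Fin 3) : Set E := {x | ∀ l, ⟪u l, x⟫ ≤ ⟪u j, x⟫}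

lemma argmax3_mem (u : Fin 3 → E) (x : E) : x ∈ sector u (argmax3 u x) := by
  intro l
  rw [inner_argmax3 u x]
  unfold max3
  fin_cases l
  · exact le_max_left _ _
  · exact (le_max_left _ _).trans (le_max_right _ _)
  · exact (le_max_right _ _).trans (le_max_right _ _)

/-- The cells of the exact partition given by `argmax3`. -/
def cell (u : Fin 3 → E) (j : Fin 3) : Set E := {x | argmax3 u x = j}

lemma isPart_cell (u : Fin 3 → E) : IsPart (cell u) := by
  refine ⟨?_, ?_, ?_⟩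
  · intro i
    have : cell u i = argmax3 u ⁻¹' {i} := rfl
    rw [this]
    exact measurable_argmax3 u (MeasurableSet.of_discrete)
  · intro i j hij
    rw [Set.disjoint_left]
    intro x hx hx'
    exact hij (hx.symm.trans hx')
  · exact eq_univ_of_forall fun x => mem_iUnion.2 ⟨argmax3 u x, rfl⟩

lemma cell_ae {u : Fin 3 → E} (hu : Function.Injective u) (j : Fin 3) :
    cell u j =ᵐ[stdGaussian E] sector u j := by
  have h1 : ∀ᵐ x ∂(stdGaussian E), ∀ i l : Fin 3, i ≠ l → ⟪u i - u l, x⟫ ≠ 0 := by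
    rw [ae_all_iff]
    intro i
    rw [ae_all_iff]
    intro l
    by_cases hil : i = l
    · exact Filter.Eventually.of_forall fun x h => absurd hil h
    · have h2 := null_hyperplane (E := E) (u := u i - u l) (sub_ne_zero.2 fun h => hil (hu h))
      have h3 : ∀ᵐ x ∂(stdGaussian E), x ∉ {x : E | ⟪u i - u l, x⟫ = 0} :=
        measure_eq_zero_iff_ae_notMem.1 h2
      filter_upwards [h3] with x hx _
      exact hx
  filter_upwards [h1] with x hx
  apply propext
  constructor
  · intro h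
    have h2 : argmax3 u x = j := h
    have h3 := argmax3_mem u x
    rw [h2] at h3
    exact h3
  · intro h
    change argmax3 u x = j
    by_contra hne
    have h3 := argmax3_mem u x
    have h4 : ⟪u (argmax3 u x), x⟫ ≤ ⟪u j, x⟫ := h _
    have h5 : ⟪u j, x⟫ ≤ ⟪u (argmax3 u x), x⟫ := h3 _
    apply hx _ _ hne
    rw [inner_sub_left, sub_eq_zero]
    exact le_antisymm h4 h5

lemma inner_of_sum_zero {u : Fin 3 → E} (hu : ∀ j, ‖u j‖ = 1) (hs : ∑ j, u j = 0) :
    ⟪u 0, u 1⟫ = -(1 / 2) ∧ ⟪u 1, u 2⟫ = -(1 / 2) ∧ ⟪u 0, u 2⟫ = -(1 / 2) := by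
  rw [Fin.sum_univ_three] at hs
  have key : ∀ a b c : E, ‖a‖ = 1 → ‖b‖ = 1 → ‖c‖ = 1 → a + b + c = 0 → ⟪a, b⟫ = -(1 / 2) := by
    intro a b c ha hb hc h
    have h1 : a + b = -c := eq_neg_of_add_eq_zero_left h
    have h2 : ‖a + b‖ ^ 2 = 1 := by rw [h1, norm_neg, hc]; norm_num
    rw [norm_add_sq_real, ha, hb] at h2
    linarith
  refine ⟨key _ _ _ (hu 0) (hu 1) (hu 2) hs, key _ _ _ (hu 1) (hu 2) (hu 0) ?_,
    key _ _ _ (hu 0) (hu 2) (hu 1) ?_⟩
  · rw [← hs]; abel
  · rw [← hs]; abel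

lemma norm_sub_of_sum_zero {u : Fin 3 → E} (hu : ∀ j, ‖u j‖ = 1) (hs : ∑ j, u j = 0) :
    ‖u 0 - u 1‖ = √3 ∧ ‖u 1 - u 2‖ = √3 ∧ ‖u 0 - u 2‖ = √3 := by
  obtain ⟨h1, h2, h3⟩ := inner_of_sum_zero hu hs
  have key : ∀ a b : E, ‖a‖ = 1 → ‖b‖ = 1 → ⟪a, b⟫ = -(1 / 2) → ‖a - b‖ = √3 := by
    intro a b ha hb h
    rw [← Real.sqrt_sq (norm_nonneg (a - b))]
    congr 1
    rw [norm_sub_sq_real, ha, hb, h]
    norm_num
  exact ⟨key _ _ (hu 0) (hu 1) h1, key _ _ (hu 1) (hu 2) h2, key _ _ (hu 0) (hu 2) h3⟩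

lemma injective_of_sum_zero {u : Fin 3 → E} (hu : ∀ j, ‖u j‖ = 1) (hs : ∑ j, u j = 0) :
    Function.Injective u := by
  obtain ⟨h1, h2, h3⟩ := norm_sub_of_sum_zero hu hs
  have s3 : (0 : ℝ) < √3 := Real.sqrt_pos.2 (by norm_num)
  have key : ∀ a b : E, ‖a - b‖ = √3 → a ≠ b := by
    intro a b h hab
    rw [hab, sub_self, norm_zero] at h
    exact absurd h.symm s3.ne'
  have n01 := key _ _ h1
  have n12 := key _ _ h2
  have n02 := key _ _ h3
  intro i j hij
  fin_cases i <;> fin_cases j <;>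
    first
    | rfl
    | exact absurd hij n01
    | exact absurd hij n12
    | exact absurd hij n02
    | exact absurd hij.symm n01
    | exact absurd hij.symm n12
    | exact absurd hij.symm n02

/-- The propeller attains the bound. -/
theorem le_sum_cell {u : Fin 3 → E} (hu : ∀ j, ‖u j‖ = 1) (hs : ∑ j, u j = 0) :
    9 / (8 * Real.pi) ≤ ∑ j, ‖fm (cell u j)‖ ^ 2 := by
  obtain ⟨h01, h12, h02⟩ := norm_sub_of_sum_zero hu hs
  have hA3 := isPart_cell u
  have hS : ∑ i, ⟪u i, fm (cell u i)⟫ = (√3 + √3 + √3) / (2 * √(2 * Real.pi)) := by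
    have h4 := integral_max3 (u 0) (u 1) (u 2)
    rw [h01, h12, h02] at h4
    rw [← h4]
    have h5 : ∀ i, ⟪u i, fm (cell u i)⟫
        = ∫ x in cell u i, max ⟪u 0, x⟫ (max ⟪u 1, x⟫ ⟪u 2, x⟫) ∂(stdGaussian E) := by
      intro i
      rw [inner_fm]
      refine setIntegral_congr_fun (hA3.meas i) fun x hx => ?_
      have hx' : argmax3 u x = i := hx
      have h6 := inner_argmax3 u x
      rw [hx'] at h6
      exact h6
    simp_rw [h5]
    rw [← integral_iUnion_fintype hA3.meas hA3.disj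
      fun i => (integrable_max3 (u 0) (u 1) (u 2)).integrableOn, hA3.cover, setIntegral_univ]
  set S := (√3 + √3 + √3) / (2 * √(2 * Real.pi)) with hSdef
  have hS2 : S ^ 2 = 27 / (8 * Real.pi) := by
    have e3 : (√3 : ℝ) ^ 2 = 3 := Real.sq_sqrt (by norm_num)
    have e4 : √(2 * Real.pi) ^ 2 = 2 * Real.pi := Real.sq_sqrt (by positivity)
    rw [hSdef, div_pow, mul_pow, e4]
    have : (√3 + √3 + √3) ^ 2 = 27 := by nlinarith only [e3]
    rw [this]
    ring
  have h7 : 0 ≤ ∑ i, ‖fm (cell u i) - (S / 3) • u i‖ ^ 2 :=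
    Finset.sum_nonneg fun i _ => sq_nonneg _
  have h8 : ∀ i, ‖fm (cell u i) - (S / 3) • u i‖ ^ 2
      = ‖fm (cell u i)‖ ^ 2 - 2 * (S / 3) * ⟪u i, fm (cell u i)⟫ + (S / 3) ^ 2 := by
    intro i
    rw [norm_sub_sq_real, inner_smul_right, real_inner_comm, norm_smul, mul_pow, hu,
      Real.norm_eq_abs, sq_abs]
    ring
  simp_rw [h8] at h7
  rw [Finset.sum_add_distrib, Finset.sum_sub_distrib, ← Finset.mul_sum, hS] at h7
  simp only [Finset.sum_const, Finset.card_univ, Fintype.card_fin, nsmul_eq_mul] at h7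
  have h9 : 9 / (8 * Real.pi) = S ^ 2 / 3 := by
    rw [hS2]; ring
  rw [h9]
  push_cast at h7
  (clear hu hs h01 h12 h02 hA3 hS hSdef hS2 h8 h9; nlinarith)

/-- The converse half: a family three of whose members are the sectors attains the bound. -/
theorem le_sum_of_sectors {k : ℕ} {A : Fin k → Set E} {u : Fin 3 → E} (hu : ∀ j, ‖u j‖ = 1)
    (hs : ∑ j, u j = 0) {f : Fin 3 → Fin k} (hf : Function.Injective f)
    (hA : ∀ j, A (f j) =ᵐ[stdGaussian E] sector u j) :
    9 / (8 * Real.pi) ≤ ∑ i, ‖∫ x in A i, x ∂(stdGaussian E)‖ ^ 2 := by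
  classical
  refine (le_sum_cell hu hs).trans ?_
  have h1 : ∀ j, fm (cell u j) = ∫ x in A (f j), x ∂(stdGaussian E) := fun j =>
    setIntegral_congr_set ((cell_ae (injective_of_sum_zero hu hs) j).trans (hA j).symm)
  simp_rw [h1]
  rw [← Finset.sum_image (s := Finset.univ) (g := f)
    (f := fun i => ‖∫ x in A i, x ∂(stdGaussian E)‖ ^ 2) fun i _ j _ h => hf h]
  exact Finset.sum_le_sum_of_subset_of_nonneg (Finset.subset_univ _) fun i _ _ => sq_nonneg _

/-- A partition up to null sets agrees up to null sets with an exact partition. -/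
theorem exists_isPart {k : ℕ} (i₀ : Fin k) {A : Fin k → Set E}
    (hm : ∀ i, NullMeasurableSet (A i) (stdGaussian E))
    (hd : ∀ i j, i ≠ j → stdGaussian E (A i ∩ A j) = 0)
    (hc : ∀ᵐ x ∂(stdGaussian E), x ∈ ⋃ i, A i) :
    ∃ C : Fin k → Set E, IsPart C ∧ ∀ i, C i =ᵐ[stdGaussian E] A i := by
  classical
  choose A' hsub hm' hae using fun i => (hm i).exists_measurable_superset_ae_eq
  set U : Fin k → Set E := fun i => ⋃ j : {j : Fin k // j < i}, A' j with hU
  have hUm : ∀ i, MeasurableSet (U i) := fun i => MeasurableSet.iUnion fun j => hm' j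
  set C : Fin k → Set E := fun i => A' i \ U i with hC
  have hCm : ∀ i, MeasurableSet (C i) := fun i => (hm' i).diff (hUm i)
  have hCdlt : ∀ i j, i < j → Disjoint (C i) (C j) := by
    intro i j hij
    rw [Set.disjoint_left]
    intro x hx hx'
    exact hx'.2 (mem_iUnion.2 ⟨⟨i, hij⟩, hx.1⟩)
  have hCd : Pairwise fun i j => Disjoint (C i) (C j) := by
    intro i j hij
    rcases lt_or_gt_of_ne hij with h | h
    · exact hCdlt i j h
    · exact (hCdlt j i h).symm
  have hnull : ∀ i j, i ≠ j → stdGaussian E (A' i ∩ A' j) = 0 := by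
    intro i j hij
    rw [measure_congr ((hae i).inter (hae j))]
    exact hd i j hij
  have hCA' : ∀ i, C i =ᵐ[stdGaussian E] A' i := by
    intro i
    refine sdiff_ae_eq_self.2 ?_
    have : A' i ∩ U i = ⋃ j : {j : Fin k // j < i}, A' i ∩ A' j := by
      rw [hU, inter_iUnion]
    rw [this]
    exact measure_iUnion_null fun j => hnull i j (ne_of_gt j.2)
  have hCA : ∀ i, C i =ᵐ[stdGaussian E] A i := fun i => (hCA' i).trans (hae i)
  set R : Set E := (⋃ i, C i)ᶜ with hR
  have hRm : MeasurableSet R := (MeasurableSet.iUnion hCm).compl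
  have hR0 : stdGaussian E R = 0 := by
    rw [measure_eq_zero_iff_ae_notMem]
    have h1 : ∀ᵐ x ∂(stdGaussian E), ∀ i, x ∈ C i ↔ x ∈ A i := by
      rw [ae_all_iff]
      exact fun i => (hCA i).mem_iff
    filter_upwards [h1, hc] with x hx hx2 hx3
    obtain ⟨i, hi⟩ := mem_iUnion.1 hx2
    exact hx3 (mem_iUnion.2 ⟨i, (hx i).2 hi⟩)
  let D : Fin k → Set E := fun i => if i = i₀ then C i ∪ R else C i
  have hD0 : D i₀ = C i₀ ∪ R := if_pos rfl
  have hD1 : ∀ i, i ≠ i₀ → D i = C i := fun i h => if_neg h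
  have hsubD : ∀ i, C i ⊆ D i := by
    intro i
    by_cases h : i = i₀
    · rw [h, hD0]; exact subset_union_left
    · rw [hD1 i h]
  have hRC : ∀ i, Disjoint (C i) R := fun i =>
    (disjoint_compl_right (a := ⋃ i, C i)).mono_left (subset_iUnion C i)
  refine ⟨D, ⟨?_, ?_, ?_⟩, ?_⟩
  · intro i
    by_cases h : i = i₀
    · rw [h, hD0]; exact (hCm i₀).union hRm
    · rw [hD1 i h]; exact hCm i
  · intro i j hij
    by_cases h1 : i = i₀
    · subst h1
      rw [hD0, hD1 j (Ne.symm hij)]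
      exact (hCd hij).union_left (hRC j).symm
    · by_cases h2 : j = i₀
      · subst h2
        rw [hD0, hD1 i h1]
        exact (hCd hij).union_right (hRC i)
      · rw [hD1 i h1, hD1 j h2]
        exact hCd hij
  · refine eq_univ_of_forall fun x => ?_
    by_cases hx : x ∈ ⋃ i, C i
    · obtain ⟨i, hi⟩ := mem_iUnion.1 hx
      exact mem_iUnion.2 ⟨i, hsubD i hi⟩
    · refine mem_iUnion.2 ⟨i₀, ?_⟩
      rw [hD0]
      exact Or.inr hx
  · intro i
    by_cases h : i = i₀
    · subst h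
      rw [hD0]
      exact (union_ae_eq_left_of_ae_eq_empty (ae_eq_empty.2 hR0)).trans (hCA i)
    · rw [hD1 i h]
      exact hCA i

end Vale.Agent.P226.Eqc
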