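import Vale.Agent.P226.H700.Card
import Vale.Agent.P226.H700.Conv
import Vale.Agent.P226.H757.Three

set_option linter.all false

/-!
# P226: the equality case of the propeller inequality, assembled
-/

open MeasureTheory ProbabilityTheory Set
open scoped RealInnerProductSpace

namespace Vale.Agent.P226.Eqc

open K3

variable {E : Type*} [NormedAddCommGroup E] [InnerProductSpace ℝ E] [FiniteDimensional ℝ E]
  [MeasurableSpace E] [BorelSpace E]

/-- **Equality case of the propeller inequality.** -/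
theorem eq_iff {k : ℕ} {A : Fin k → Set E}
    (hm : ∀ i, NullMeasurableSet (A i) (stdGaussian E))
    (hd : Pairwise fun i j => AEDisjoint (stdGaussian E) (A i) (A j))
    (hc : ∀ᵐ x ∂(stdGaussian E), x ∈ ⋃ i, A i) :
    ∑ i, ‖∫ x in A i, x ∂(stdGaussian E)‖ ^ 2 = 9 / (8 * Real.pi) ↔
      ∃ (u : Fin 3 → E) (f : Fin 3 → Fin k),
        (∀ j, ‖u j‖ = 1) ∧ ∑ j, u j = 0 ∧ Function.Injective f ∧
        (∀ j, A (f j) =ᵐ[stdGaussian E] {x | ∀ l, ⟪u l, x⟫ ≤ ⟪u j, x⟫}) ∧
        ∀ i, i ∉ Set.range f → stdGaussian E (A i) = 0 := by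
  classical
  constructor
  · intro h
    obtain ⟨i₀⟩ : Nonempty (Fin k) := by
      by_contra hne
      rw [not_nonempty_iff] at hne
      rw [Finset.univ_eq_empty, Finset.sum_empty] at h
      have : (0 : ℝ) < 9 / (8 * Real.pi) := by positivity
      linarith
    obtain ⟨C, hC, hCA⟩ := exists_isPart i₀ hm (fun i j hij => hd hij) hc
    have hfm : ∀ i, fm (C i) = ∫ x in A i, x ∂(stdGaussian E) := fun i =>
      setIntegral_congr_set (hCA i)
    have hmax : IsMax C := ⟨hC, by simp_rw [hfm]; exact h⟩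
    obtain ⟨u, hu, hs, f, hf, hS, hN⟩ := hmax.propeller (by convert hmax.card_le_three)
    refine ⟨u, f, hu, hs, hf, fun j => (hCA (f j)).symm.trans (hS j), fun i hi => ?_⟩
    rw [← measure_congr (hCA i)]
    exact hN i hi
  · rintro ⟨u, f, hu, hs, hf, hS, -⟩
    exact le_antisymm (sum_le_of_bdd (bdd _) hm fun i j hij => hd hij)
      (le_sum_of_sectors hu hs hf hS)

end Vale.Agent.P226.Eqc
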