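import Vale.Agent.P226.Bdl.B1

set_option linter.all false

/-!
# P226: the standard Gaussian charges every nonempty open set
-/

open MeasureTheory ProbabilityTheory
open scoped RealInnerProductSpace

namespace Vale.Agent.P226

variable {E : Type*} [NormedAddCommGroup E] [InnerProductSpace ℝ E] [FiniteDimensional ℝ E]
  [MeasurableSpace E] [BorelSpace E]

lemma isOpenPos_gaussianReal : (gaussianReal 0 1).IsOpenPosMeasure :=
  (gaussianReal_absolutelyContinuous' 0 (by norm_num)).isOpenPosMeasure

lemma isOpenPos_stdGaussian : (stdGaussian E).IsOpenPosMeasure := by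
  haveI := isOpenPos_gaussianReal
  rw [stdGaussian_eq_map_pi_orthonormalBasis (stdOrthonormalBasis ℝ E)]
  refine Continuous.isOpenPosMeasure_map (by fun_prop) ?_
  intro x
  refine ⟨fun i => (stdOrthonormalBasis ℝ E).repr x i, ?_⟩
  exact (stdOrthonormalBasis ℝ E).sum_repr x

/-- An open set of Gaussian measure zero is empty. -/
lemma not_mem_of_null {U : Set E} (hU : IsOpen U) (h : stdGaussian E U = 0) (x : E) : x ∉ U := by
  haveI : (stdGaussian E).IsOpenPosMeasure := isOpenPos_stdGaussian
  have := hU.measure_eq_zero_iff (μ := stdGaussian E) |>.1 h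
  rw [this]
  exact Set.notMem_empty x

end Vale.Agent.P226
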