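import Vale.Agent.P226.Bdl.B1

set_option linter.all false

/-!
# P226: equality partitions with at least four cells of nonzero moment

This file repeats the construction of the numerical data of a minimal counterexample (`Bad` in
`Bdl/B1.lean`) for a partition which attains the bound `9/(8π)` (or exceeds it), with pairwise
strictly obtuse moments and at least four cells.
-/

section

open MeasureTheory ProbabilityTheory
open scoped RealInnerProductSpace

namespace Vale.Agent.P226.Wk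

open K3

variable {E : Type*} [NormedAddCommGroup E] [InnerProductSpace ℝ E] [FiniteDimensional ℝ E]
  [MeasurableSpace E] [BorelSpace E]

/-- At least four vectors, sorted by decreasing norm, pairwise strictly obtuse, with sum zero,
which are the moments of a partition, and whose sum of squared norms is at least the propeller
constant. -/
structure Bad (E : Type*) [NormedAddCommGroup E] [InnerProductSpace ℝ E] [FiniteDimensional ℝ E]
    [MeasurableSpace E] [BorelSpace E] where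
  /-- number of cells minus four -/
  m : ℕ
  /-- the cells -/
  A : Fin (m + 4) → Set E
  part : IsPart A
  big : 9 / (8 * Real.pi) ≤ ∑ i, ‖fm (A i)‖ ^ 2
  obtuse : ∀ i j, i ≠ j → ⟪fm (A i), fm (A j)⟫ < 0
  anti : Antitone fun i => ‖fm (A i)‖

namespace Bad

/-- The moment vectors of a minimal counterexample. -/
noncomputable def z (B : Bad E) (i : Fin (B.m + 4)) : E := fm (B.A i)

lemma sum_z (B : Bad E) : ∑ i, B.z i = 0 := B.part.sum_fm

lemma inner_z_neg (B : Bad E) {i j : Fin (B.m + 4)} (h : i ≠ j) : ⟪B.z i, B.z j⟫ < 0 :=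
  B.obtuse i j h

lemma norm_z_anti (B : Bad E) {i j : Fin (B.m + 4)} (h : i ≤ j) : ‖B.z j‖ ≤ ‖B.z i‖ :=
  B.anti h

lemma le_sum_sq (B : Bad E) : 9 / (8 * Real.pi) ≤ ∑ i, ‖B.z i‖ ^ 2 := B.big

end Bad

namespace Bad

/-- The cells after the first four. -/
def tail (B : Bad E) (i : Fin B.m) : Fin (B.m + 4) := i.succ.succ.succ.succ

lemma sum_split {M : Type*} [AddCommMonoid M] (B : Bad E) (f : Fin (B.m + 4) → M) :
    ∑ i, f i = f 0 + (f 1 + (f 2 + (f 3 + ∑ i, f (B.tail i)))) := by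
  rw [Fin.sum_univ_succ, Fin.sum_univ_succ, Fin.sum_univ_succ, Fin.sum_univ_succ]
  rfl

/-- The four largest moments. -/
noncomputable def top (B : Bad E) : Fin 4 → E := ![B.z 0, B.z 1, B.z 2, B.z 3]

lemma top_inner_neg (B : Bad E) : ∀ i j, i ≠ j → ⟪B.top i, B.top j⟫ < 0 := by
  have hval : ∀ i : Fin 4, B.top i = B.z (i.castLE (by omega)) := by
    intro i
    fin_cases i <;> rfl
  intro i j hij
  rw [hval, hval]
  exact B.inner_z_neg fun h => hij ((Fin.castLE_injective _) h)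

/-- The three dimensional space carrying the differences of the four largest moments. -/
noncomputable def V (B : Bad E) : Submodule ℝ E := dirSpan B.top

lemma finrank_V (B : Bad E) : Module.finrank ℝ B.V = 3 := finrank_dirSpan B.top_inner_neg

/-- The component orthogonal to `V` of the four largest moments. -/
noncomputable def p (B : Bad E) : E := B.z 0 - B.V.starProjection (B.z 0)

lemma p_eq (B : Bad E) (i : Fin 4) : B.top i - B.V.starProjection (B.top i) = B.p :=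
  sub_proj_eq B.top i

/-- The sum of the moments after the first four. -/
noncomputable def w (B : Bad E) : E := ∑ i, B.z (B.tail i)

lemma tail_injective (B : Bad E) : Function.Injective B.tail := by
  intro i j h
  simpa [tail] using h

lemma norm_w_sq_le (B : Bad E) : ‖B.w‖ ^ 2 ≤ ∑ i, ‖B.z (B.tail i)‖ ^ 2 := by
  rw [w, ← real_inner_self_eq_norm_sq, sum_inner]
  refine Finset.sum_le_sum fun i _ => ?_
  rw [inner_sum, ← Finset.add_sum_erase _ _ (Finset.mem_univ i), real_inner_self_eq_norm_sq]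
  have : ∑ j ∈ Finset.univ.erase i, ⟪B.z (B.tail i), B.z (B.tail j)⟫ ≤ 0 :=
    Finset.sum_nonpos fun j hj => (B.inner_z_neg fun h =>
      (Finset.ne_of_mem_erase hj) (B.tail_injective h).symm).le
  linarith

lemma top_sum_add_w (B : Bad E) : B.z 0 + (B.z 1 + (B.z 2 + (B.z 3 + B.w))) = 0 := by
  rw [← B.sum_z, B.sum_split B.z]
  rfl

lemma four_p (B : Bad E) : (4 : ℝ) • B.p = -(B.w - B.V.starProjection B.w) := by
  have h := B.top_sum_add_w
  have h' : B.V.starProjection (B.z 0) + (B.V.starProjection (B.z 1) + (B.V.starProjection (B.z 2)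
      + (B.V.starProjection (B.z 3) + B.V.starProjection B.w))) = 0 := by
    rw [← map_add, ← map_add, ← map_add, ← map_add, h, map_zero]
  have e0 : B.z 0 - B.V.starProjection (B.z 0) = B.p := B.p_eq 0
  have e1 : B.z 1 - B.V.starProjection (B.z 1) = B.p := B.p_eq 1
  have e2 : B.z 2 - B.V.starProjection (B.z 2) = B.p := B.p_eq 2
  have e3 : B.z 3 - B.V.starProjection (B.z 3) = B.p := B.p_eq 3
  have e : (4 : ℝ) • B.p = B.p + B.p + B.p + B.p := by
    module
  rw [e]
  nth_rewrite 1 [← e0]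
  nth_rewrite 1 [← e1]
  nth_rewrite 1 [← e2]
  nth_rewrite 1 [← e3]
  have h2 : B.w = -(B.z 0 + B.z 1 + B.z 2 + B.z 3) := by
    rw [eq_neg_iff_add_eq_zero, ← h]; abel
  have h2' : B.V.starProjection B.w = -(B.V.starProjection (B.z 0) + B.V.starProjection (B.z 1)
      + B.V.starProjection (B.z 2) + B.V.starProjection (B.z 3)) := by
    rw [eq_neg_iff_add_eq_zero, ← h']; abel
  rw [h2', h2]
  abel

lemma norm_p_sq_le (B : Bad E) : 16 * ‖B.p‖ ^ 2 ≤ ∑ i, ‖B.z (B.tail i)‖ ^ 2 := by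
  have h1 : ‖(4 : ℝ) • B.p‖ ^ 2 ≤ ‖B.w‖ ^ 2 := by
    rw [B.four_p, norm_neg]
    have h2 := Submodule.norm_sq_eq_add_norm_sq_starProjection B.w B.V
    have h3 : B.w - B.V.starProjection B.w = B.Vᗮ.starProjection B.w := by
      rw [Submodule.starProjection_orthogonal_val]
    rw [h3]
    nlinarith [sq_nonneg ‖B.V.starProjection B.w‖]
  rw [norm_smul, mul_pow] at h1
  have : ‖(4 : ℝ)‖ ^ 2 = 16 := by norm_num
  rw [this] at h1
  exact h1.trans B.norm_w_sq_le

lemma norm_top_proj (B : Bad E) (i : Fin 4) :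
    ‖B.V.starProjection (B.top i)‖ = √(‖B.top i‖ ^ 2 - ‖B.p‖ ^ 2) := by
  have h2 := Submodule.norm_sq_eq_add_norm_sq_starProjection (B.top i) B.V
  have h3 : B.p = B.Vᗮ.starProjection (B.top i) := by
    rw [Submodule.starProjection_orthogonal_val, ← B.p_eq i]
  rw [h3, h2, add_sub_cancel_right, Real.sqrt_sq (norm_nonneg _)]

lemma norm_p_le (B : Bad E) (i : Fin 4) : ‖B.p‖ ≤ ‖B.top i‖ := by
  have h2 := Submodule.norm_sq_eq_add_norm_sq_starProjection (B.top i) B.V
  have h3 : B.p = B.Vᗮ.starProjection (B.top i) := by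
    rw [Submodule.starProjection_orthogonal_val, ← B.p_eq i]
  rw [h3]
  refine le_of_sq_le_sq ?_ (norm_nonneg _)
  nlinarith [sq_nonneg ‖B.V.starProjection (B.top i)‖]

lemma sqrt_scale {s x : ℝ} (hs : 0 ≤ s) : √(s ^ 2 * x) = s * √x := by
  rw [Real.sqrt_mul (sq_nonneg s), Real.sqrt_sq hs]

/-- Rescaled norms of the moments. -/
noncomputable def ζ (B : Bad E) (i : Fin (B.m + 4)) : ℝ := √(2 * Real.pi) * ‖B.z i‖

/-- Rescaled norm of the common tilt. -/
noncomputable def η (B : Bad E) : ℝ := √(2 * Real.pi) * ‖B.p‖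

lemma ζ_nonneg (B : Bad E) (i) : 0 ≤ B.ζ i := by unfold ζ; positivity

lemma η_nonneg (B : Bad E) : 0 ≤ B.η := by unfold η; positivity

lemma ζ_anti (B : Bad E) {i j : Fin (B.m + 4)} (h : i ≤ j) : B.ζ j ≤ B.ζ i :=
  mul_le_mul_of_nonneg_left (B.norm_z_anti h) (Real.sqrt_nonneg _)

lemma sq_two_pi : √(2 * Real.pi) ^ 2 = 2 * Real.pi := Real.sq_sqrt (by positivity)

lemma ζ_sq (B : Bad E) (i) : B.ζ i ^ 2 = 2 * Real.pi * ‖B.z i‖ ^ 2 := by
  rw [ζ, mul_pow, sq_two_pi]

lemma le_sum_ζ_sq (B : Bad E) : 9 / 4 ≤ ∑ i, B.ζ i ^ 2 := by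
  simp_rw [ζ_sq]
  rw [← Finset.mul_sum]
  have h := B.le_sum_sq
  have hpi := Real.pi_pos
  rw [div_le_iff₀ (by positivity)] at h
  linarith

lemma η_sq_le (B : Bad E) : 16 * B.η ^ 2 ≤ ∑ i, B.ζ (B.tail i) ^ 2 := by
  simp_rw [ζ_sq]
  rw [← Finset.mul_sum, η, mul_pow, sq_two_pi]
  have h := B.norm_p_sq_le
  have hpi := Real.pi_pos
  nlinarith

lemma η_le (B : Bad E) : B.η ≤ B.ζ 3 :=
  mul_le_mul_of_nonneg_left (B.norm_p_le 3) (Real.sqrt_nonneg _)

end Bad

end Vale.Agent.P226.Wk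

end

section

open MeasureTheory ProbabilityTheory Set
open scoped ENNReal NNReal RealInnerProductSpace

namespace Vale.Agent.P226.Wk

open K3 Gauss3

variable {E : Type*} [NormedAddCommGroup E] [InnerProductSpace ℝ E] [FiniteDimensional ℝ E]
  [MeasurableSpace E] [BorelSpace E]

namespace Bad

lemma norm_Zc (B : Bad E) (i : Fin (B.m + 4)) : ‖Zc (B.A i)‖ = B.ζ i := by
  rw [Zc, norm_smul, Real.norm_eq_abs, abs_of_nonneg (Real.sqrt_nonneg _)]
  rfl

/-- The mass of the cells with respect to the space `V`. -/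
noncomputable def nn (B : Bad E) (i : Fin (B.m + 4)) : ℝ := nnV B.V (B.A i)

lemma sum_nn (B : Bad E) : ∑ i, B.nn i = 4 := B.part.sum_nnV_three B.finrank_V

/-- The index in `Fin (m + 4)` of one of the four largest cells. -/
def topIdx (B : Bad E) (i : Fin 4) : Fin (B.m + 4) := i.castLE (by omega)

lemma top_eq (B : Bad E) (i : Fin 4) : B.top i = B.z (B.topIdx i) := by
  fin_cases i <;> rfl

lemma norm_proj_Zc_top (B : Bad E) (i : Fin 4) :
    ‖B.V.starProjection (Zc (B.A (B.topIdx i)))‖ = √(B.ζ (B.topIdx i) ^ 2 - B.η ^ 2) := by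
  have h := B.norm_top_proj i
  have h1 : Zc (B.A (B.topIdx i)) = √(2 * Real.pi) • B.top i := by
    rw [B.top_eq]; rfl
  rw [h1, map_smul, norm_smul, h, Real.norm_eq_abs, abs_of_nonneg (Real.sqrt_nonneg _),
    ← sqrt_scale (Real.sqrt_nonneg _)]
  congr 1
  rw [ζ, η, B.top_eq]
  ring

lemma norm_sub_proj_Zc_top (B : Bad E) (i : Fin 4) :
    ‖Zc (B.A (B.topIdx i)) - B.V.starProjection (Zc (B.A (B.topIdx i)))‖ = B.η := by
  have h1 : Zc (B.A (B.topIdx i)) = √(2 * Real.pi) • B.top i := by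
    rw [B.top_eq]; rfl
  rw [h1, map_smul, ← smul_sub, B.p_eq, norm_smul, Real.norm_eq_abs,
    abs_of_nonneg (Real.sqrt_nonneg _)]
  rfl

/-- `(3a)` for the four largest cells. -/
theorem nn_top (B : Bad E) (i : Fin 4) {x : ℝ} (hx0 : 0 < x) (hx1 : x ≤ 1) :
    √(B.ζ (B.topIdx i) ^ 2 - B.η ^ 2) + B.η ^ 2 / 2
      ≤ x * B.nn (B.topIdx i) + (1 - x) ^ 2 := by
  have h := cell3a B.finrank_V (A := B.A (B.topIdx i)) hx0 hx1
  rwa [B.norm_proj_Zc_top, B.norm_sub_proj_Zc_top] at h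

/-- `(3b)` for all cells. -/
theorem nn_all (B : Bad E) (i : Fin (B.m + 4)) {c : ℝ} (hc0 : 0 < c) (hc1 : c ≤ 1) :
    B.ζ i * √(1 - c ^ 2) ≤ c * B.nn i + (1 - c) ^ 2 := by
  have h := cell3b B.finrank_V (A := B.A i) hc0 hc1
  rwa [B.norm_Zc] at h

/-- The tilt is at most `1/4`. -/
theorem sixteen_η_sq_le_one (B : Bad E) : 16 * B.η ^ 2 ≤ 1 := by
  have h1 := B.part.norm_sum_Zc_le (Finset.univ.image B.tail)
  rw [Finset.sum_image fun i _ j _ hij => B.tail_injective hij] at h1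
  have h2 : ∑ i, Zc (B.A (B.tail i)) = √(2 * Real.pi) • B.w := by
    rw [w, Finset.smul_sum]
    rfl
  rw [h2, norm_smul, Real.norm_eq_abs, abs_of_nonneg (Real.sqrt_nonneg _)] at h1
  have h3 : ‖(4 : ℝ) • B.p‖ ^ 2 ≤ ‖B.w‖ ^ 2 := by
    rw [B.four_p, norm_neg]
    have h2 := Submodule.norm_sq_eq_add_norm_sq_starProjection B.w B.V
    have h3 : B.w - B.V.starProjection B.w = B.Vᗮ.starProjection B.w := by
      rw [Submodule.starProjection_orthogonal_val]
    rw [h3]
    nlinarith [sq_nonneg ‖B.V.starProjection B.w‖]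
  rw [norm_smul, mul_pow] at h3
  have h4 : ‖(4 : ℝ)‖ ^ 2 = 16 := by norm_num
  rw [h4] at h3
  have h5 : 16 * B.η ^ 2 = √(2 * Real.pi) ^ 2 * (16 * ‖B.p‖ ^ 2) := by
    rw [η]; ring
  rw [h5]
  calc _ ≤ √(2 * Real.pi) ^ 2 * ‖B.w‖ ^ 2 := mul_le_mul_of_nonneg_left h3 (sq_nonneg _)
    _ = (√(2 * Real.pi) * ‖B.w‖) ^ 2 := by ring
    _ ≤ 1 := by
      have := norm_nonneg B.w
      have h0 : 0 ≤ √(2 * Real.pi) * ‖B.w‖ := by positivity
      (clear h2 h3 h4 h5 this; nlinarith)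

/-- Three of the moments. -/
noncomputable def top3 (B : Bad E) : Fin 3 → E := ![B.z 0, B.z 1, B.z 2]

lemma top3_eq (B : Bad E) (i : Fin 3) : B.top3 i = B.z (i.castLE (by omega)) := by
  fin_cases i <;> rfl

lemma top3_inner_neg (B : Bad E) : ∀ i j, i ≠ j → ⟪B.top3 i, B.top3 j⟫ < 0 := by
  intro i j hij
  rw [top3_eq, top3_eq]
  exact B.inner_z_neg fun h => hij ((Fin.castLE_injective _) h)

lemma three_ne_castLE (B : Bad E) (i : Fin 3) :
    (3 : Fin (B.m + 4)) ≠ i.castLE (by omega) := by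
  intro h
  have h1 := congrArg Fin.val h
  have h2 : ((3 : Fin (B.m + 4)) : ℕ) = 3 := by
    have : (3 : Fin (B.m + 4)) = (⟨3, by omega⟩ : Fin (B.m + 4)) := by
      apply Fin.ext
      simp [Nat.mod_eq_of_lt]
    rw [this]
  rw [h2] at h1
  have h3 := i.2
  simp at h1
  omega

lemma top3_inner_z3 (B : Bad E) (i : Fin 3) : ⟪B.top3 i, B.z 3⟫ < 0 := by
  rw [top3_eq]
  exact B.inner_z_neg (B.three_ne_castLE i).symm

/-- The three largest moments are linearly independent. -/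
lemma linearIndependent_top3 (B : Bad E) : LinearIndependent ℝ B.top3 := by
  rw [Fintype.linearIndependent_iff]
  -- a nonnegative combination which vanishes is trivial
  have hkey : ∀ c : Fin 3 → ℝ, (∀ i, 0 ≤ c i) → ∑ i, c i • B.top3 i = 0 → ∀ i, c i = 0 := by
    intro c hc h
    by_contra hne
    push Not at hne
    obtain ⟨i₀, hi₀⟩ := hne
    have h1 : ⟪∑ i, c i • B.top3 i, B.z 3⟫ = ∑ i, c i * ⟪B.top3 i, B.z 3⟫ := by
      rw [sum_inner]
      refine Finset.sum_congr rfl fun i _ => ?_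
      rw [inner_smul_left]
      rfl
    have h2 : ∑ i, c i * ⟪B.top3 i, B.z 3⟫ < 0 :=
      Finset.sum_neg' (fun i _ => mul_nonpos_of_nonneg_of_nonpos (hc i) (B.top3_inner_z3 i).le)
        ⟨i₀, Finset.mem_univ _, mul_neg_of_pos_of_neg (lt_of_le_of_ne (hc i₀) (Ne.symm hi₀))
          (B.top3_inner_z3 i₀)⟩
    rw [← h1, h, inner_zero_left] at h2
    exact lt_irrefl _ h2
  intro g hg
  set P := ∑ i, (max (g i) 0) • B.top3 i with hP
  have hPN : P = ∑ i, (max (-g i) 0) • B.top3 i := by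
    rw [hP, ← sub_eq_zero, ← Finset.sum_sub_distrib, ← hg]
    refine Finset.sum_congr rfl fun i _ => ?_
    rw [← sub_smul]
    congr 1
    rcases le_total 0 (g i) with h0 | h0
    · rw [max_eq_left h0, max_eq_right (by linarith)]; ring
    · rw [max_eq_right h0, max_eq_left (by linarith)]; ring
  have h1 : ‖P‖ ^ 2 = ∑ i, ∑ j, (max (g i) 0) * (max (-g j) 0) * ⟪B.top3 i, B.top3 j⟫ := by
    rw [← real_inner_self_eq_norm_sq]
    nth_rewrite 2 [hPN]
    rw [hP, sum_inner]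
    refine Finset.sum_congr rfl fun i _ => ?_
    rw [inner_sum]
    refine Finset.sum_congr rfl fun j _ => ?_
    rw [inner_smul_left, inner_smul_right]
    simp only [Real.ringHom_apply]
    ring
  have h2 : ∀ i j, (max (g i) 0) * (max (-g j) 0) * ⟪B.top3 i, B.top3 j⟫ ≤ 0 := by
    intro i j
    by_cases hij : i = j
    · subst hij
      rcases le_total 0 (g i) with h0 | h0
      · rw [max_eq_right (b := (0 : ℝ)) (by linarith : -g i ≤ 0)]; simp only [mul_zero, inner_self_eq_norm_sq_to_K, Real.ringHom_apply, zero_mul, Std.le_refl]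
      · rw [max_eq_right h0]; simp only [zero_mul, inner_self_eq_norm_sq_to_K, Real.ringHom_apply, Std.le_refl]
    · exact mul_nonpos_of_nonneg_of_nonpos
        (mul_nonneg (le_max_right _ _) (le_max_right _ _)) (B.top3_inner_neg i j hij).le
  have h3 : ‖P‖ ^ 2 ≤ 0 := by
    rw [h1]
    exact Finset.sum_nonpos fun i _ => Finset.sum_nonpos fun j _ => h2 i j
  have h4 : P = 0 := norm_eq_zero.1 (by nlinarith only [h3])
  have h5 := hkey _ (fun i => le_max_right _ _) h4
  have h6 := hkey _ (fun i => le_max_right _ _) (hPN.symm.trans h4)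
  intro i
  have h7 := le_max_left (g i) 0
  have h8 := le_max_left (-g i) 0
  rw [h5] at h7
  rw [h6] at h8
  linarith

/-- The linear span of the three largest moments. -/
noncomputable def W (B : Bad E) : Submodule ℝ E := Submodule.span ℝ (Set.range B.top3)

lemma finrank_W (B : Bad E) : Module.finrank ℝ B.W = 3 := by
  rw [W, finrank_span_eq_card B.linearIndependent_top3, Fintype.card_fin]

lemma starProjection_W (B : Bad E) (i : Fin 3) :
    B.W.starProjection (Zc (B.A (i.castLE (by omega)))) = Zc (B.A (i.castLE (by omega))) := by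
  apply Submodule.starProjection_eq_self_iff.2
  have h1 : Zc (B.A (i.castLE (by omega))) = √(2 * Real.pi) • B.top3 i := by
    rw [B.top3_eq]; rfl
  rw [h1]
  exact Submodule.smul_mem _ _ (Submodule.subset_span ⟨i, rfl⟩)

/-- The mass of the cells with respect to the space `W`. -/
noncomputable def nw (B : Bad E) (i : Fin (B.m + 4)) : ℝ := nnV B.W (B.A i)

lemma sum_nw (B : Bad E) : ∑ i, B.nw i = 4 := B.part.sum_nnV_three B.finrank_W

/-- `(3b)` for all cells. -/
theorem nw_all (B : Bad E) (i : Fin (B.m + 4)) {c : ℝ} (hc0 : 0 < c) (hc1 : c ≤ 1) :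
    B.ζ i * √(1 - c ^ 2) ≤ c * B.nw i + (1 - c) ^ 2 := by
  have h := cell3b B.finrank_W (A := B.A i) hc0 hc1
  rwa [B.norm_Zc] at h

end Bad

namespace Bad

/-- The plane parallel to the affine hull of the three largest moments. -/
noncomputable def V2 (B : Bad E) : Submodule ℝ E := dirSpan B.top3

lemma finrank_V2 (B : Bad E) : Module.finrank ℝ B.V2 = 2 := finrank_dirSpan B.top3_inner_neg

/-- The component orthogonal to `V2` of the three largest moments. -/
noncomputable def p2 (B : Bad E) : E := B.z 0 - B.V2.starProjection (B.z 0)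

lemma p2_eq (B : Bad E) (i : Fin 3) : B.top3 i - B.V2.starProjection (B.top3 i) = B.p2 :=
  sub_proj_eq B.top3 i

/-- The sum of the moments after the first three. -/
noncomputable def w2 (B : Bad E) : E := B.z 3 + B.w

lemma norm_w2_sq_le (B : Bad E) :
    ‖B.w2‖ ^ 2 ≤ ‖B.z 3‖ ^ 2 + ∑ i, ‖B.z (B.tail i)‖ ^ 2 := by
  rw [w2, norm_add_sq_real]
  have h1 := B.norm_w_sq_le
  have h2 : ⟪B.z 3, B.w⟫ ≤ 0 := by
    rw [w, inner_sum]
    refine Finset.sum_nonpos fun i _ => (B.inner_z_neg ?_).le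
    intro h
    have h3 := congrArg Fin.val h
    have h4 : ((3 : Fin (B.m + 4)) : ℕ) = 3 := by
      have : (3 : Fin (B.m + 4)) = (⟨3, by omega⟩ : Fin (B.m + 4)) := by
        apply Fin.ext
        simp [Nat.mod_eq_of_lt]
      rw [this]
    rw [h4] at h3
    simp [tail] at h3
  linarith

lemma three_p2 (B : Bad E) : (3 : ℝ) • B.p2 = -(B.w2 - B.V2.starProjection B.w2) := by
  have h := B.top_sum_add_w
  have h' : B.V2.starProjection (B.z 0) + (B.V2.starProjection (B.z 1)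
      + (B.V2.starProjection (B.z 2) + (B.V2.starProjection B.w2))) = 0 := by
    rw [← map_add, ← map_add, ← map_add, w2, h, map_zero]
  have e0 : B.z 0 - B.V2.starProjection (B.z 0) = B.p2 := B.p2_eq 0
  have e1 : B.z 1 - B.V2.starProjection (B.z 1) = B.p2 := B.p2_eq 1
  have e2 : B.z 2 - B.V2.starProjection (B.z 2) = B.p2 := B.p2_eq 2
  have e : (3 : ℝ) • B.p2 = B.p2 + B.p2 + B.p2 := by
    module
  rw [e]
  nth_rewrite 1 [← e0]
  nth_rewrite 1 [← e1]
  nth_rewrite 1 [← e2]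
  have h2 : B.w2 = -(B.z 0 + B.z 1 + B.z 2) := by
    rw [eq_neg_iff_add_eq_zero, ← h, w2]; abel
  have h2' : B.V2.starProjection B.w2 = -(B.V2.starProjection (B.z 0)
      + B.V2.starProjection (B.z 1) + B.V2.starProjection (B.z 2)) := by
    rw [eq_neg_iff_add_eq_zero, ← h']; abel
  rw [h2', h2]
  abel

lemma norm_p2_sq_le (B : Bad E) :
    9 * ‖B.p2‖ ^ 2 ≤ ‖B.z 3‖ ^ 2 + ∑ i, ‖B.z (B.tail i)‖ ^ 2 := by
  have h1 : ‖(3 : ℝ) • B.p2‖ ^ 2 ≤ ‖B.w2‖ ^ 2 := by
    rw [B.three_p2, norm_neg]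
    have h2 := Submodule.norm_sq_eq_add_norm_sq_starProjection B.w2 B.V2
    have h3 : B.w2 - B.V2.starProjection B.w2 = B.V2ᗮ.starProjection B.w2 := by
      rw [Submodule.starProjection_orthogonal_val]
    rw [h3]
    nlinarith [sq_nonneg ‖B.V2.starProjection B.w2‖]
  rw [norm_smul, mul_pow] at h1
  have : ‖(3 : ℝ)‖ ^ 2 = 9 := by norm_num
  rw [this] at h1
  exact h1.trans B.norm_w2_sq_le

/-- Rescaled norm of the common tilt out of the plane `V2`. -/
noncomputable def η2 (B : Bad E) : ℝ := √(2 * Real.pi) * ‖B.p2‖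

lemma η2_sq_le (B : Bad E) : 9 * B.η2 ^ 2 ≤ B.ζ 3 ^ 2 + ∑ i, B.ζ (B.tail i) ^ 2 := by
  simp_rw [ζ_sq]
  rw [← Finset.mul_sum, η2, mul_pow, sq_two_pi]
  have h := B.norm_p2_sq_le
  have hpi := Real.pi_pos
  nlinarith

lemma Zc_top3 (B : Bad E) (i : Fin 3) :
    Zc (B.A (i.castLE (by omega))) = √(2 * Real.pi) • B.top3 i := by
  rw [B.top3_eq]; rfl

lemma norm_sub_proj_Zc_top3 (B : Bad E) (i : Fin 3) :
    ‖Zc (B.A (i.castLE (by omega))) - B.V2.starProjection (Zc (B.A (i.castLE (by omega))))‖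
      = B.η2 := by
  rw [B.Zc_top3, map_smul, ← smul_sub, B.p2_eq, norm_smul, Real.norm_eq_abs,
    abs_of_nonneg (Real.sqrt_nonneg _)]
  rfl

lemma norm_proj_Zc_top3 (B : Bad E) (i : Fin 3) :
    ‖B.V2.starProjection (Zc (B.A (i.castLE (by omega))))‖
      = √(B.ζ (i.castLE (by omega)) ^ 2 - B.η2 ^ 2) := by
  have h2 := Submodule.norm_sq_eq_add_norm_sq_starProjection
    (Zc (B.A (i.castLE (by omega)))) B.V2
  rw [Submodule.starProjection_orthogonal_val, B.norm_sub_proj_Zc_top3, B.norm_Zc] at h2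
  rw [h2, add_sub_cancel_right, Real.sqrt_sq (norm_nonneg _)]

lemma η2_le (B : Bad E) (i : Fin 3) : B.η2 ^ 2 ≤ B.ζ (i.castLE (by omega)) ^ 2 := by
  have h2 := Submodule.norm_sq_eq_add_norm_sq_starProjection
    (Zc (B.A (i.castLE (by omega)))) B.V2
  rw [Submodule.starProjection_orthogonal_val, B.norm_sub_proj_Zc_top3, B.norm_Zc] at h2
  rw [h2]
  have := sq_nonneg ‖B.V2.starProjection (Zc (B.A (i.castLE (by omega))))‖
  linarith

/-- The mass of the cells with respect to the plane `V2`. -/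
noncomputable def n2 (B : Bad E) (i : Fin (B.m + 4)) : ℝ := nnV B.V2 (B.A i)

lemma n2_nonneg (B : Bad E) (i : Fin (B.m + 4)) : 0 ≤ B.n2 i := nnV_nonneg _ _

/-- `(2a)` for the three largest cells. -/
theorem n2_top (B : Bad E) (hG : G2Bound B.V2) (i : Fin 3) {θ : ℝ} (h0 : 0 ≤ θ)
    (h1 : θ ≤ Real.pi / 2) :
    √(B.ζ (i.castLE (by omega)) ^ 2 - B.η2 ^ 2)
      ≤ (B.n2 (i.castLE (by omega)) - θ) * Real.cos θ + (1 - B.η2 ^ 2 / 2) * Real.sin θ := by
  have h := cell2a (by rw [B.finrank_V2]; norm_num) hG (A := B.A (i.castLE (by omega))) h0 h1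
  rwa [B.norm_proj_Zc_top3, B.norm_sub_proj_Zc_top3] at h

/-- `(2b)` for all cells. -/
theorem n2_all (B : Bad E) (hG : G2vBound B.V2) (i : Fin (B.m + 4)) {s : ℝ} (hs : 0 ≤ s) :
    s * B.ζ i ≤ B.n2 i + s - Real.arctan s := by
  have h := cell2b hG (A := B.A i) hs
  rwa [B.norm_Zc] at h

lemma sum_n2 (B : Bad E) (h : ∫ x, ‖B.V2.starProjection x‖ ∂(stdGaussian E)
    = (√(2 * Real.pi))⁻¹ * Real.pi) : ∑ i, B.n2 i = Real.pi := by
  unfold n2
  rw [B.part.sum_nnV, h, ← mul_assoc, mul_inv_cancel₀ sqrt_two_pi_pos.ne', one_mul]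

end Bad

end Vale.Agent.P226.Wk

end

section

namespace Vale.Agent.P226.Wk

/-- The numerical data produced by a three dimensional threshold space containing the three
largest moments. -/
structure Span3 {m : ℕ} (ζ n : Fin (m + 4) → ℝ) : Prop where
  nonneg : ∀ i, 0 ≤ ζ i
  anti : Antitone ζ
  vert : ∀ i, Vert3 (ζ i) (n i)
  in0 : InV3 (ζ 0) 0 (n 0)
  in1 : InV3 (ζ 1) 0 (n 1)
  in2 : InV3 (ζ 2) 0 (n 2)
  sum : ∑ i, n i = 4
  big : 9 / 4 ≤ ∑ i, ζ i ^ 2

variable {m : ℕ} {ζ n : Fin (m + 4) → ℝ}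

/-- the sum of squares of all but the three largest -/
lemma Span3.caseC (h : Span3 ζ n) : 0.4 < ζ 2 := by
  by_contra hlt
  push Not at hlt
  have hs := h.sum
  have hb := h.big
  rw [sum_split3] at hs hb
  have htail : ∀ i : Fin (m + 1), ζ i.succ.succ.succ ≤ ζ 2 := fun i =>
    h.anti (by
      rw [Fin.le_def]
      simp only [Fin.val_succ]
      have : (2 : Fin (m + 4)).val = 2 := rfl
      omega)
  rcases le_total (ζ 2) 0.28 with h28 | h28
  · have c0 := cellC1 h.in0 (h.nonneg 0)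
    have c1 := cellC1 h.in1 (h.nonneg 1)
    have c2 := (h.vert 2).rho28 (h.nonneg 2) h28
    have c3 : 2.08 * ∑ i : Fin (m + 1), ζ i.succ.succ.succ ^ 2
        ≤ ∑ i : Fin (m + 1), n i.succ.succ.succ := by
      rw [Finset.mul_sum]
      exact Finset.sum_le_sum fun i _ =>
        (h.vert _).rho28 (h.nonneg _) ((htail i).trans h28)
    linarith
  · have c0 := cellC2 h.in0 (h.nonneg 0)
    have c1 := cellC2 h.in1 (h.nonneg 1)
    have c2 := cellC2' h.in2 h28 hlt
    have c3 : 1.75 * ∑ i : Fin (m + 1), ζ i.succ.succ.succ ^ 2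
        ≤ ∑ i : Fin (m + 1), n i.succ.succ.succ := by
      rw [Finset.mul_sum]
      exact Finset.sum_le_sum fun i _ =>
        (h.vert _).rho40 (h.nonneg _) ((htail i).trans hlt)
    linarith

lemma Span3.caseD (h : Span3 ζ n) (h3 : ζ 3 ≤ 0.2) :
    ∑ i : Fin (m + 1), ζ i.succ.succ.succ ^ 2 < 0.27 := by
  by_contra hge
  push Not at hge
  have hs := h.sum
  have hb := h.big
  rw [sum_split3] at hs hb
  have htail : ∀ i : Fin (m + 1), ζ i.succ.succ.succ ≤ ζ 3 := fun i =>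
    h.anti (by
      rw [Fin.le_def]
      simp only [Fin.val_succ]
      have : (3 : Fin (m + 4)).val = 3 := rfl
      omega)
  have c0 := cellD h.in0 (h.nonneg 0)
  have c1 := cellD h.in1 (h.nonneg 1)
  have c2 := cellD h.in2 (h.nonneg 2)
  have c3 : 2.5 * ∑ i : Fin (m + 1), ζ i.succ.succ.succ ^ 2
      ≤ ∑ i : Fin (m + 1), n i.succ.succ.succ := by
    rw [Finset.mul_sum]
    exact Finset.sum_le_sum fun i _ =>
      (h.vert _).rho20 (h.nonneg _) ((htail i).trans h3)
  linarith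

/-- Data from the three dimensional space parallel to the affine hull of the four largest
moments. `H` is the squared norm of their common orthogonal component. -/
structure Aff4 {m : ℕ} (ζ n : Fin (m + 4) → ℝ) (H : ℝ) : Prop where
  nonneg : ∀ i, 0 ≤ ζ i
  anti : Antitone ζ
  vert : ∀ i, Vert3 (ζ i) (n i)
  in0 : InV3 (√(ζ 0 ^ 2 - H)) H (n 0)
  in1 : InV3 (√(ζ 1 ^ 2 - H)) H (n 1)
  in2 : InV3 (√(ζ 2 ^ 2 - H)) H (n 2)
  in3 : InV3 (√(ζ 3 ^ 2 - H)) H (n 3)
  H_nonneg : 0 ≤ H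
  H_le3 : H ≤ ζ 3 ^ 2
  H_le : H ≤ 1 / 16
  H_tail : 16 * H ≤ ∑ i : Fin m, ζ i.succ.succ.succ.succ ^ 2
  sum : ∑ i, n i = 4
  big : 9 / 4 ≤ ∑ i, ζ i ^ 2


/-- Data from the plane parallel to the affine hull of the three largest moments. -/
structure Aff3 {m : ℕ} (ζ n : Fin (m + 4) → ℝ) (H : ℝ) : Prop where
  nonneg : ∀ i, 0 ≤ ζ i
  anti : Antitone ζ
  n_nonneg : ∀ i, 0 ≤ n i
  vert : ∀ i, Vert2 (ζ i) (n i)
  in0 : InV2 (√(ζ 0 ^ 2 - H)) H (n 0)
  in1 : InV2 (√(ζ 1 ^ 2 - H)) H (n 1)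
  in2 : InV2 (√(ζ 2 ^ 2 - H)) H (n 2)
  H_nonneg : 0 ≤ H
  H_le2 : H ≤ ζ 2 ^ 2
  H_tail : 9 * H ≤ ∑ i : Fin (m + 1), ζ i.succ.succ.succ ^ 2
  sum : ∑ i, n i = Real.pi
  big : 9 / 4 ≤ ∑ i, ζ i ^ 2

end Vale.Agent.P226.Wk

end

section

open MeasureTheory ProbabilityTheory Set
open scoped ENNReal NNReal RealInnerProductSpace

namespace Vale.Agent.P226.Wk.Bad

open K3 Gauss3

variable {E : Type*} [NormedAddCommGroup E] [InnerProductSpace ℝ E] [FiniteDimensional ℝ E]
  [MeasurableSpace E] [BorelSpace E]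

lemma ζ_antitone (B : Bad E) : Antitone B.ζ := fun _ _ h => B.ζ_anti h

/-- Data from the span of the three largest moments. -/
theorem span3 (B : Bad E) : Span3 B.ζ B.nw where
  nonneg := B.ζ_nonneg
  anti := B.ζ_antitone
  vert := fun i _ hc0 hc1 => B.nw_all i hc0 hc1
  in0 := by
    intro x h0 h1
    have h := cell3a B.finrank_W (A := B.A 0) h0 h1
    have h2 : B.W.starProjection (Zc (B.A 0)) = Zc (B.A 0) := B.starProjection_W 0
    rw [h2, sub_self, norm_zero, B.norm_Zc] at h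
    have h3 : B.nw 0 = nnV B.W (B.A 0) := rfl
    rw [h3]
    linarith
  in1 := by
    intro x h0 h1
    have h := cell3a B.finrank_W (A := B.A 1) h0 h1
    have h2 : B.W.starProjection (Zc (B.A 1)) = Zc (B.A 1) := B.starProjection_W 1
    rw [h2, sub_self, norm_zero, B.norm_Zc] at h
    have h3 : B.nw 1 = nnV B.W (B.A 1) := rfl
    rw [h3]
    (clear h0 h1 h2 h3; linarith)
  in2 := by
    intro x h0 h1
    have h := cell3a B.finrank_W (A := B.A 2) h0 h1
    have h2 : B.W.starProjection (Zc (B.A 2)) = Zc (B.A 2) := B.starProjection_W 2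
    rw [h2, sub_self, norm_zero, B.norm_Zc] at h
    have h3 : B.nw 2 = nnV B.W (B.A 2) := rfl
    rw [h3]
    linarith
  sum := B.sum_nw
  big := B.le_sum_ζ_sq

/-- Data from the three dimensional space parallel to the affine hull of the four largest
moments. -/
theorem aff4 (B : Bad E) : Aff4 B.ζ B.nn (B.η ^ 2) where
  nonneg := B.ζ_nonneg
  anti := B.ζ_antitone
  vert := fun i _ hc0 hc1 => B.nn_all i hc0 hc1
  in0 := fun _ h0 h1 => B.nn_top 0 h0 h1
  in1 := fun _ h0 h1 => B.nn_top 1 h0 h1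
  in2 := fun _ h0 h1 => B.nn_top 2 h0 h1
  in3 := fun _ h0 h1 => B.nn_top 3 h0 h1
  H_nonneg := sq_nonneg _
  H_le3 := pow_le_pow_left₀ B.η_nonneg B.η_le 2
  H_le := by
    have := B.sixteen_η_sq_le_one
    linarith
  H_tail := B.η_sq_le
  sum := B.sum_nn
  big := B.le_sum_ζ_sq

/-- Data from the plane parallel to the affine hull of the three largest moments. -/
theorem aff3 (B : Bad E) (hG : G2Bound B.V2) (hGv : G2vBound B.V2)
    (hE : ∫ x, ‖B.V2.starProjection x‖ ∂(stdGaussian E) = (√(2 * Real.pi))⁻¹ * Real.pi) :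
    Aff3 B.ζ B.n2 (B.η2 ^ 2) where
  nonneg := B.ζ_nonneg
  anti := B.ζ_antitone
  n_nonneg := B.n2_nonneg
  vert := fun i s hs => by
    have := B.n2_all hGv i hs
    linarith
  in0 := fun _ h0 h1 => B.n2_top hG 0 h0 h1
  in1 := fun _ h0 h1 => B.n2_top hG 1 h0 h1
  in2 := fun _ h0 h1 => B.n2_top hG 2 h0 h1
  H_nonneg := sq_nonneg _
  H_le2 := B.η2_le 2
  H_tail := by
    rw [Fin.sum_univ_succ]
    exact B.η2_sq_le
  sum := B.sum_n2 hE
  big := B.le_sum_ζ_sq

end Vale.Agent.P226.Wk.Bad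

end
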