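import Vale.Agent.P226.H700.Weak1

set_option linter.all false

/-!
# P226: case A for an equality configuration
-/

namespace Vale.Agent.P226.Wk

open Real

lemma numeric_one' {σ : ℝ} (h0 : 0 ≤ σ) (h1 : σ ≤ 0.27) :
    (1 - σ / 18) ^ 2 * (1 + cos (1.255 * σ)) + 4 / 3 * σ ≤ 9 / 4 - σ / 1000 := by
  have hb := (abs_le.1 (cos_bound (x := 1.255 * σ) (by rw [abs_of_nonneg (by positivity)]; linarith))).2
  rw [abs_of_nonneg (by positivity : 0 ≤ 1.255 * σ)] at hb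
  have h2 : 1 + cos (1.255 * σ) ≤ 2 - 0.787512 * σ ^ 2 + 0.13 * σ ^ 4 := by
    nlinarith only [hb]
  have h3 : (1 - σ / 18) ^ 2 * (1 + cos (1.255 * σ))
      ≤ (1 - σ / 18) ^ 2 * (2 - 0.787512 * σ ^ 2 + 0.13 * σ ^ 4) := by
    gcongr
  have ht : 0 ≤ 0.27 - σ := by linarith only [h1]
  nlinarith only [h3, ht, mul_nonneg (pow_nonneg h0 5) ht]

lemma numeric_two' {σ : ℝ} (h0 : 0 ≤ σ) (h1 : σ ≤ 0.27) :
    (1 - σ / 18) ^ 2 * (3 * sin ((π - 1.255 * σ) / 3) ^ 2) + 4 / 3 * σ ≤ 9 / 4 - σ / 1000 := by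
  rw [three_sin_sq]
  set v := 2 * (1.255 * σ) / 3 with hv
  have hv0 : 0 ≤ v := by positivity
  have hv1 : v ≤ 1 / 4 := by rw [hv]; linarith only [h1]
  have hc := (abs_le.1 (cos_bound (x := v) (by rw [abs_of_nonneg hv0]; linarith only [h1, hv]))).2
  have hs := (abs_le.1 (sin_bound (x := v) (by rw [abs_of_nonneg hv0]; linarith only [h1, hv]))).1
  rw [abs_of_nonneg hv0] at hc hs
  have h3 : (1.732 : ℝ) ≤ √3 := by
    apply le_sqrt_of_sq_le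
    norm_num
  have hsin : 0 ≤ sin v := sin_nonneg_of_nonneg_of_le_pi hv0 (by linarith only [h1, hv, pi_gt_three])
  have h4 : 3 / 2 + 3 / 4 * cos v - 3 / 4 * √3 * sin v
      ≤ 9 / 4 - 3 / 8 * v ^ 2 + 3 / 4 * (v ^ 4 * (5 / 96))
        - 1.299 * (v - v ^ 3 / 6 - v ^ 5 / 100) := by
    nlinarith only [hc, hs, h3, hsin]
  have h5 : (1 - σ / 18) ^ 2 * (3 / 2 + 3 / 4 * cos v - 3 / 4 * √3 * sin v)
      ≤ (1 - σ / 18) ^ 2 * (9 / 4 - 3 / 8 * v ^ 2 + 3 / 4 * (v ^ 4 * (5 / 96))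
        - 1.299 * (v - v ^ 3 / 6 - v ^ 5 / 100)) := by
    (clear * - h4; gcongr)
  have ht : 0 ≤ 0.27 - σ := by linarith only [h1]
  have h6 : (1 - σ / 18) ^ 2 * (9 / 4 - 3 / 8 * v ^ 2 + 3 / 4 * (v ^ 4 * (5 / 96))
        - 1.299 * (v - v ^ 3 / 6 - v ^ 5 / 100)) + 4 / 3 * σ ≤ 9 / 4 - σ / 1000 := by
    rw [hv]
    nlinarith only [h0, ht, mul_nonneg (pow_nonneg h0 3) ht, mul_nonneg (pow_nonneg h0 5) ht]
  linarith only [h5, h6]

/-- The real inequality of case A. -/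
theorem caseA_real' {x y z σ H : ℝ} (hx : 0 ≤ x) (hy : 0 ≤ y) (hz : 0 ≤ z)
    (hxπ : x ≤ π / 2) (hyπ : y ≤ π / 2) (hzπ : z ≤ π / 2) (hσ0 : 0 ≤ σ) (hσ : σ ≤ 0.27)
    (hH0 : 0 ≤ H) (hH : 9 * H ≤ σ) (hsum : x + y + z ≤ π - 1.255 * σ) :
    (1 - H / 2) ^ 2 * (sin x ^ 2 + sin y ^ 2 + sin z ^ 2) + 3 * H + σ ≤ 9 / 4 - σ / 1000 := by
  have hQ0 : 0 ≤ sin x ^ 2 + sin y ^ 2 + sin z ^ 2 := by (clear * -; positivity)
  have hQ3 : sin x ^ 2 + sin y ^ 2 + sin z ^ 2 ≤ 3 := by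
    linarith only [sin_sq_le_one x, sin_sq_le_one y, sin_sq_le_one z]
  have h1 := mono_H hQ0 hQ3 hH0 hH
  rcases trig_core hx hy hz hxπ hyπ hzπ (by positivity : 0 ≤ 1.255 * σ) (by linarith only [hσ]) hsum
    with h | h
  · have h2 : (1 - σ / 18) ^ 2 * (sin x ^ 2 + sin y ^ 2 + sin z ^ 2)
        ≤ (1 - σ / 18) ^ 2 * (1 + cos (1.255 * σ)) := by (clear * - h; gcongr)
    have := numeric_one' hσ0 hσ
    linarith only [h1, h2, this]
  · have h2 : (1 - σ / 18) ^ 2 * (sin x ^ 2 + sin y ^ 2 + sin z ^ 2)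
        ≤ (1 - σ / 18) ^ 2 * (3 * sin ((π - 1.255 * σ) / 3) ^ 2) := by (clear * - h; gcongr)
    have := numeric_two' hσ0 hσ
    linarith only [h1, h2, this]

/-- Case A: fourth largest moment at most `0.36` and tail energy at most `0.27`. -/
theorem Aff3.caseA {m : ℕ} {ζ n : Fin (m + 4) → ℝ} {H : ℝ} (h : Aff3 ζ n H)
    (h0 : 0 < ζ 3)
    (h3 : ζ 3 ≤ 0.36) (hσ : ∑ i : Fin (m + 1), ζ i.succ.succ.succ ^ 2 ≤ 0.27) : False := by
  have hπ := pi_pos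
  have hσpos : 0 < ∑ i : Fin (m + 1), ζ i.succ.succ.succ ^ 2 := by
    refine Finset.sum_pos' (fun i _ => sq_nonneg _) ⟨0, Finset.mem_univ _, ?_⟩
    exact pow_pos h0 2
  set σ := ∑ i : Fin (m + 1), ζ i.succ.succ.succ ^ 2 with hσdef
  have hσ0 : 0 ≤ σ := Finset.sum_nonneg fun i _ => by positivity
  have hH0 := h.H_nonneg
  have hH9 := h.H_tail
  have hH : H ≤ 0.03 := by linarith only [hσ, hH9]
  -- tail cells
  have htail : ∀ i : Fin (m + 1), 1.255 * ζ i.succ.succ.succ ^ 2 ≤ n i.succ.succ.succ := by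
    intro i
    apply (h.vert _).le (h.nonneg _)
    have h4 : ζ i.succ.succ.succ ≤ ζ 3 := by
      apply h.anti
      change (0 : Fin (m + 1)).succ.succ.succ ≤ i.succ.succ.succ
      simp only [Fin.succ_le_succ_iff]
      exact Fin.zero_le i
    linarith only [h3, h4]
  have htailsum : 1.255 * σ ≤ ∑ i : Fin (m + 1), n i.succ.succ.succ := by
    rw [hσdef, Finset.mul_sum]
    exact Finset.sum_le_sum fun i _ => htail i
  have hsumn := h.sum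
  rw [sum_split3] at hsumn
  have hbig := h.big
  rw [sum_split3 (fun i => ζ i ^ 2)] at hbig
  -- big cells
  have hcell : ∀ j : Fin (m + 4), InV2 (√(ζ j ^ 2 - H)) H (n j) → H ≤ ζ j ^ 2 →
      ζ j ^ 2 ≤ (1 - H / 2) ^ 2 * sin (min (n j) (π / 2)) ^ 2 + H := by
    intro j hj hHj
    have h5 := hj.le (h.n_nonneg j)
    have h6 : √(ζ j ^ 2 - H) ^ 2 = ζ j ^ 2 - H := sq_sqrt (by linarith only [hHj])
    have h7 : √(ζ j ^ 2 - H) ^ 2 ≤ ((1 - H / 2) * sin (min (n j) (π / 2))) ^ 2 := by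
      (clear * - h5; gcongr)
    rw [mul_pow] at h7
    linarith only [h6, h7]
  have hle : ∀ j : Fin (m + 4), j ≤ 2 → H ≤ ζ j ^ 2 := by
    intro j hj
    have h8 : ζ 2 ≤ ζ j := h.anti hj
    have h9 := h.H_le2
    have h10 := h.nonneg 2
    nlinarith only [h9, h8, h10]
  have c0 := hcell 0 h.in0 (hle 0 (by simp))
  have c1 := hcell 1 h.in1 (hle 1 (by
    change (0 : Fin (m + 3)).succ ≤ (1 : Fin (m + 3)).succ
    simp only [Fin.succ_le_succ_iff]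
    exact Fin.zero_le _))
  have c2 := hcell 2 h.in2 (hle 2 le_rfl)
  have hmin0 : ∀ j : Fin (m + 4), 0 ≤ min (n j) (π / 2) := fun j =>
    le_min (h.n_nonneg j) (by positivity)
  have hfin := caseA_real' (hmin0 0) (hmin0 1) (hmin0 2) (min_le_right _ _) (min_le_right _ _)
    (min_le_right _ _) hσ0 hσ hH0 hH9 (by
      have a0 : min (n 0) (π / 2) ≤ n 0 := min_le_left _ _
      have a1 : min (n 1) (π / 2) ≤ n 1 := min_le_left _ _
      have a2 : min (n 2) (π / 2) ≤ n 2 := min_le_left _ _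
      linarith only [htailsum, hsumn, a0, a1, a2])
  linarith only [hbig, c0, c1, c2, hfin, hσpos]

end Vale.Agent.P226.Wk
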