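import Vale.Agent.P226.H700.Weak2

set_option linter.all false

/-!
# P226: case B for an equality configuration
-/

namespace Vale.Agent.P226.CaseB

/-- Pieces with `z₄ < 0.52`: three cells are bounded by a common linear function, the fourth
one by a tangent at `x₀`, and the tail by `ρ t²`. -/
lemma piece' {Q T N n3 z3 H p μ ν ρ x₀ lo hi am θ α β γ η : ℝ} (hH : 0 ≤ H) (hH1 : H ≤ 1 / 16)
    (hHt : 16 * H ≤ T) (c3 : TopCell z3 H n3) (hlo : lo ≤ z3) (hhi : z3 ≤ hi)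
    (hQ : 3 * p + μ * Q - 3 * ν * H + n3 + N ≤ 4)
    (hS : 2249 / 1000 < Q + z3 ^ 2 + T) (hσ : (1 - θ) * (27 / 100) ≤ (1 - θ) * (z3 ^ 2 + T))
    (er : ρ * T ≤ N) (hμ : 0 < μ) (hρ : μ ≤ ρ) (hx₀ : 0 < x₀) (hlo0 : 0 ≤ lo) (hhi0 : 0 ≤ hi)
    (ham : am ^ 2 ≤ lo ^ 2 - 1 / 16 ∨ am = 0) (hθ : 0 ≤ θ)
    (hα : α = 3 * p + 2249 / 1000 * μ - 4 - (1 - x₀) ^ 2 / x₀ + (ρ - μ) * (1 - θ) * (27 / 100))
    (hβ : β = 1 / x₀) (hγ : γ = μ + (ρ - μ) * (1 - θ))
    (hη : η = 1 / (2 * x₀) - 3 * ν - μ + (ρ - μ) * (17 * θ - 1))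
    (hγ0 : 0 ≤ γ) (hη0 : 0 ≤ η)
    (h1 : 0 ≤ α + β * lo - γ * lo ^ 2) (h2 : 0 ≤ α + β * hi - γ * hi ^ 2)
    (h3 : 0 ≤ α + η * lo ^ 2 + β * am - (γ + η) * am ^ 2) : False := by
  obtain ⟨a, ha, haz, ht3⟩ := c3.tangent hH hx₀
  have key := region (a := a) (H := H) hγ0 hη0 ha hH hH1 (by rw [haz]; nlinarith only [hlo, hlo0])
    (by rw [haz]; nlinarith only [hlo, hhi, hlo0]) hhi0 ham h1 h2 h3
  have e1 : (a + H / 2 - (1 - x₀) ^ 2) / x₀ = 1 / x₀ * a + 1 / (2 * x₀) * H - (1 - x₀) ^ 2 / x₀ := by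
    (clear * - hx₀; field_simp)
  rw [e1] at ht3
  have e2 : (ρ - μ) * ((1 - θ) * (27 / 100 - z3 ^ 2) + θ * (16 * H)) ≤ (ρ - μ) * T := by
    refine mul_le_mul_of_nonneg_left ?_ (by linarith only [hρ])
    have : θ * (16 * H) ≤ θ * T := mul_le_mul_of_nonneg_left hHt hθ
    linarith only [hσ, this]
  rw [← haz] at e2 hS
  have e3 : μ * (2249 / 1000) < μ * (Q + (a ^ 2 + H) + T) := mul_lt_mul_of_pos_left hS hμ
  rw [hα, hβ, hγ, hη] at key
  set r := 1 / x₀
  set r2 := 1 / (2 * x₀)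
  set r3 := (1 - x₀) ^ 2 / x₀
  linarith

/-- The range `z₄ ≥ 0.52`: all four cells are bounded by `1/4 + 4/3 z² - ν H`. -/
lemma piece_high' {Q T N n H ν ρ : ℝ} (hH : 0 ≤ H) (hHt : 16 * H ≤ T) (hT : 0 ≤ T)
    (hQ : 1 + 4 / 3 * Q - 4 * ν * H ≤ n) (hn : n + N ≤ 4)
    (hS : 9 / 4 ≤ Q + T) (er : ρ * T ≤ N) (hν : 0 ≤ ν) (hρ : 4 / 3 + ν / 4 < ρ) :
    T = 0 ∧ H = 0 ∧ n ≤ 4 ∧ 9 / 4 ≤ Q := by
  have h1 : ν * (16 * H) ≤ ν * T := mul_le_mul_of_nonneg_left hHt hν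
  have h2 : (ρ - (4 / 3 + ν / 4)) * T ≤ 0 := by
    linarith
  have h3 : T ≤ 0 := by
    by_contra hc
    push Not at hc
    have := mul_pos (sub_pos.2 hρ) hc
    linarith
  have hT0 : T = 0 := le_antisymm h3 hT
  have hH0 : H = 0 := by linarith
  refine ⟨hT0, hH0, ?_, ?_⟩
  · rw [hT0] at er
    linarith
  · rw [hT0] at hS
    linarith

/-- Equality in the linear bound for a top cell. -/
lemma TopCell.eq_of {z n : ℝ} (h : TopCell z 0 n) (hz : 52 / 100 ≤ z)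
    (hn : n ≤ 1 / 4 + 4 / 3 * z ^ 2) : z = 3 / 4 ∧ n = 1 := by
  obtain ⟨x, a, hx0, hx1, ha, haz, hax, hn2⟩ := h.exists_x le_rfl
  have haz' : a = z := by
    have h1 : a ^ 2 = z ^ 2 := by linarith
    exact (pow_left_inj₀ ha (by linarith) two_ne_zero).1 h1
  have hz' : z = 1 - x ^ 2 := by rw [← haz']; linarith
  have hx2 : x ^ 2 ≤ 48 / 100 := by linarith
  have hx3 : x ≤ 7 / 10 := by nlinarith only [hx2, hx0]
  have key : (x - 1 / 2) ^ 2 * (5 / 4 - x - x ^ 2) ≤ 0 := by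
    rw [hz'] at hn
    nlinarith only [hn, hn2]
  have hpos : 0 < 5 / 4 - x - x ^ 2 := by linarith
  have h5 : (x - 1 / 2) ^ 2 ≤ 0 := by
    by_contra hc
    push Not at hc
    have := mul_pos hc hpos
    linarith
  have h6 : x = 1 / 2 := by nlinarith only [h5]
  subst h6
  have h7 : z = 3 / 4 := by rw [hz']; norm_num
  refine ⟨h7, ?_⟩
  rw [h7] at hn
  norm_num at hn
  linarith

/-- The conclusion in the borderline case. -/
lemma high_concl {ι : Type*} [Fintype ι] {z0 z1 z2 z3 H n0 n1 n2 n3 : ℝ} {t : ι → ℝ} {c : ℝ}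
    (c0 : TopCell z0 H n0) (c1 : TopCell z1 H n1) (c2 : TopCell z2 H n2) (c3 : TopCell z3 H n3)
    (h01 : z1 ≤ z0) (h12 : z2 ≤ z1) (h23 : z3 ≤ z2) (hz3 : 52 / 100 ≤ z3)
    (e0 : 1 / 4 + 4 / 3 * z0 ^ 2 - c * H ≤ n0) (e1 : 1 / 4 + 4 / 3 * z1 ^ 2 - c * H ≤ n1)
    (e2 : 1 / 4 + 4 / 3 * z2 ^ 2 - c * H ≤ n2) (e3 : 1 / 4 + 4 / 3 * z3 ^ 2 - c * H ≤ n3)
    (h : ∑ j, t j ^ 2 = 0 ∧ H = 0 ∧ n0 + n1 + n2 + n3 ≤ 4 ∧
      9 / 4 ≤ z0 ^ 2 + z1 ^ 2 + z2 ^ 2 + z3 ^ 2) :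
    ∑ j, t j ^ 2 = 0 ∧ H = 0 ∧ (z0 = 3 / 4 ∧ n0 = 1) ∧ (z1 = 3 / 4 ∧ n1 = 1) ∧
      (z2 = 3 / 4 ∧ n2 = 1) ∧ (z3 = 3 / 4 ∧ n3 = 1) := by
  obtain ⟨hT, hH, hn, hQ⟩ := h
  subst hH
  refine ⟨hT, rfl, c0.eq_of (by linarith) (by linarith), c1.eq_of (by linarith) (by linarith),
    c2.eq_of (by linarith) (by linarith), c3.eq_of hz3 (by linarith)⟩

/-- **Case B.** -/
theorem caseB' {ι : Type*} [Fintype ι] {z0 z1 z2 z3 H n0 n1 n2 n3 : ℝ} {t nt : ι → ℝ}
    (hH : 0 ≤ H) (hH1 : H ≤ 1 / 16) (hHt : 16 * H ≤ ∑ j, t j ^ 2)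
    (h01 : z1 ≤ z0) (h12 : z2 ≤ z1) (h23 : z3 ≤ z2) (ht : ∀ j, t j ≤ z3)
    (c0 : TopCell z0 H n0) (c1 : TopCell z1 H n1) (c2 : TopCell z2 H n2) (c3 : TopCell z3 H n3)
    (ct : ∀ j, TailCell (t j) (nt j))
    (hn : n0 + n1 + n2 + n3 + ∑ j, nt j ≤ 4)
    (hS : 9 / 4 ≤ z0 ^ 2 + z1 ^ 2 + z2 ^ 2 + z3 ^ 2 + ∑ j, t j ^ 2)
    (hz2 : 2 / 5 ≤ z2)
    (hcase : 36 / 100 ≤ z3 ∨ (1 / 5 ≤ z3 ∧ 27 / 100 ≤ z3 ^ 2 + ∑ j, t j ^ 2)) :
    ∑ j, t j ^ 2 = 0 ∧ H = 0 ∧ (z0 = 3 / 4 ∧ n0 = 1) ∧ (z1 = 3 / 4 ∧ n1 = 1) ∧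
      (z2 = 3 / 4 ∧ n2 = 1) ∧ (z3 = 3 / 4 ∧ n3 = 1) := by
  have hS' : 2249 / 1000 < z0 ^ 2 + z1 ^ 2 + z2 ^ 2 + z3 ^ 2 + ∑ j, t j ^ 2 := by linarith
  have hz3 : 1 / 5 ≤ z3 := by
    rcases hcase with h | h
    · linarith only [h]
    · exact h.1
  have hT : 0 ≤ ∑ j, t j ^ 2 := Finset.sum_nonneg fun j _ => sq_nonneg _
  rcases le_or_gt z3 (42 / 100) with h42 | h42
  · -- the three largest cells are at least 2/5, m = 2/5
    have e0 := c0.lin40 hH hH1 (by linarith only [h01, h12, hz2])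
    have e1 := c1.lin40 hH hH1 (by linarith only [h12, hz2])
    have e2 := c2.lin40 hH hH1 hz2
    rcases lt_or_ge z3 (36 / 100) with h36 | h36
    · have hσ : 27 / 100 ≤ z3 ^ 2 + ∑ j, t j ^ 2 := by
        rcases hcase with h | h
        · exact absurd h36 (not_lt.2 h)
        · exact h.2
      rcases le_or_gt z3 (30 / 100) with h30 | h30
      · rcases le_or_gt z3 (25 / 100) with h25 | h25
        · exact (piece' (Q := z0 ^ 2 + z1 ^ 2 + z2 ^ 2) (T := ∑ j, t j ^ 2) (N := ∑ j, nt j)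
            (p := 3 / 20) (μ := 125 / 84) (ν := 3 / 10) (ρ := 11 / 5) (x₀ := 9 / 10)
            (lo := 1 / 5) (hi := 1 / 4) (am := 0) (θ := 1 / 2) hH hH1 hHt c3 hz3
            (h25.trans (by norm_num)) (by linarith only [hn, e0, e1, e2]) hS' (by linarith only [hσ])
            (sum_row fun j => (ct j).row025 ((ht j).trans (h25.trans (by norm_num))))
            (by norm_num) (by norm_num) (by norm_num) (by norm_num) (by norm_num)
            (Or.inr rfl) (by norm_num) rfl rfl rfl rfl (by norm_num) (by norm_num)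
            (by norm_num) (by norm_num) (by norm_num)).elim
        · exact (piece' (Q := z0 ^ 2 + z1 ^ 2 + z2 ^ 2) (T := ∑ j, t j ^ 2) (N := ∑ j, nt j)
            (p := 3 / 20) (μ := 125 / 84) (ν := 3 / 10) (ρ := 2) (x₀ := 86 / 100)
            (lo := 25 / 100) (hi := 30 / 100) (am := 0) (θ := 3 / 5) hH hH1 hHt c3 h25.le
            h30 (by linarith only [hn, e0, e1, e2]) hS' (by linarith only [hσ])
            (sum_row fun j => (ct j).row030 ((ht j).trans (h30.trans (by norm_num))))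
            (by norm_num) (by norm_num) (by norm_num) (by norm_num) (by norm_num)
            (Or.inr rfl) (by norm_num) rfl rfl rfl rfl (by norm_num) (by norm_num)
            (by norm_num) (by norm_num) (by norm_num)).elim
      · exact (piece' (Q := z0 ^ 2 + z1 ^ 2 + z2 ^ 2) (T := ∑ j, t j ^ 2) (N := ∑ j, nt j)
          (p := 3 / 20) (μ := 125 / 84) (ν := 3 / 10) (ρ := 184 / 100) (x₀ := 82 / 100)
          (lo := 30 / 100) (hi := 36 / 100) (am := 165 / 1000) (θ := 3 / 5) hH hH1 hHt c3 h30.le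
          h36.le (by linarith only [hn, e0, e1, e2]) hS' (by linarith only [hσ])
          (sum_row fun j => (ct j).row036 ((ht j).trans h36.le))
          (by norm_num) (by norm_num) (by norm_num) (by norm_num) (by norm_num)
          (Or.inl (by norm_num)) (by norm_num) rfl rfl rfl rfl (by norm_num) (by norm_num)
          (by norm_num) (by norm_num) (by norm_num)).elim
    · exact (piece' (Q := z0 ^ 2 + z1 ^ 2 + z2 ^ 2) (T := ∑ j, t j ^ 2) (N := ∑ j, nt j)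
        (p := 3 / 20) (μ := 125 / 84) (ν := 3 / 10) (ρ := 171 / 100) (x₀ := 78 / 100)
        (lo := 36 / 100) (hi := 42 / 100) (am := 259 / 1000) (θ := 1) hH hH1 hHt c3 h36
        h42 (by linarith only [hn, e0, e1, e2]) hS' (by linarith only [])
        (sum_row fun j => (ct j).row042 ((ht j).trans h42))
        (by norm_num) (by norm_num) (by norm_num) (by norm_num) (by norm_num)
        (Or.inl (by norm_num)) (by norm_num) rfl rfl rfl rfl (by norm_num) (by norm_num)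
        (by norm_num) (by norm_num) (by norm_num)).elim
  · rcases le_or_gt z3 (47 / 100) with h47 | h47
    · have e0 := c0.lin42 hH hH1 (by linarith only [h01, h12, h23, h42])
      have e1 := c1.lin42 hH hH1 (by linarith only [h12, h23, h42])
      have e2 := c2.lin42 hH hH1 (by linarith only [h23, h42])
      exact (piece' (Q := z0 ^ 2 + z1 ^ 2 + z2 ^ 2) (T := ∑ j, t j ^ 2) (N := ∑ j, nt j)
        (p := 4 / 21) (μ := 343 / 240) (ν := 55 / 100) (ρ := 163 / 100) (x₀ := 73 / 100)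
        (lo := 42 / 100) (hi := 47 / 100) (am := 337 / 1000) (θ := 1) hH hH1 hHt c3 h42.le
        h47 (by linarith only [hn, e0, e1, e2]) hS' (by linarith only [])
        (sum_row fun j => (ct j).row047 ((ht j).trans h47))
        (by norm_num) (by norm_num) (by norm_num) (by norm_num) (by norm_num)
        (Or.inl (by norm_num)) (by norm_num) rfl rfl rfl rfl (by norm_num) (by norm_num)
        (by norm_num) (by norm_num) (by norm_num)).elim
    · rcases le_or_gt z3 (52 / 100) with h52 | h52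
      · have e0 := c0.lin47 hH hH1 (by linarith only [h01, h12, h23, h47])
        have e1 := c1.lin47 hH hH1 (by linarith only [h12, h23, h47])
        have e2 := c2.lin47 hH hH1 (by linarith only [h23, h47])
        exact (piece' (Q := z0 ^ 2 + z1 ^ 2 + z2 ^ 2) (T := ∑ j, t j ^ 2) (N := ∑ j, nt j)
          (p := 4 / 21) (μ := 343 / 240) (ν := 33 / 100) (ρ := 157 / 100) (x₀ := 73 / 100)
          (lo := 47 / 100) (hi := 52 / 100) (am := 397 / 1000) (θ := 1) hH hH1 hHt c3 h47.le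
          h52 (by linarith only [hn, e0, e1, e2]) hS' (by linarith only [])
          (sum_row fun j => (ct j).row052 ((ht j).trans h52))
          (by norm_num) (by norm_num) (by norm_num) (by norm_num) (by norm_num)
          (Or.inl (by norm_num)) (by norm_num) rfl rfl rfl rfl (by norm_num) (by norm_num)
          (by norm_num) (by norm_num) (by norm_num)).elim
      · rcases le_or_gt z3 (58 / 100) with h58 | h58
        · have e0 := c0.lin52 hH hH1 (by linarith only [h01, h12, h23, h52])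
          have e1 := c1.lin52 hH hH1 (by linarith only [h12, h23, h52])
          have e2 := c2.lin52 hH hH1 (by linarith only [h23, h52])
          have e3 := c3.lin52 hH hH1 h52.le
          exact high_concl c0 c1 c2 c3 h01 h12 h23 (by linarith) e0 e1 e2 e3 (piece_high' (Q := z0 ^ 2 + z1 ^ 2 + z2 ^ 2 + z3 ^ 2) (n := n0 + n1 + n2 + n3)
            (ν := 70 / 100) (ρ := 152 / 100) hH hHt hT (by linarith only [e0, e1, e2, e3]) hn hS
            (sum_row fun j => (ct j).row058 ((ht j).trans h58)) (by norm_num) (by norm_num))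
        · rcases le_or_gt z3 (649 / 1000) with h64 | h64
          · have e0 := c0.lin58 hH hH1 (by linarith only [h01, h12, h23, h58])
            have e1 := c1.lin58 hH hH1 (by linarith only [h12, h23, h58])
            have e2 := c2.lin58 hH hH1 (by linarith only [h23, h58])
            have e3 := c3.lin58 hH hH1 h58.le
            exact high_concl c0 c1 c2 c3 h01 h12 h23 (by linarith) e0 e1 e2 e3 (piece_high' (Q := z0 ^ 2 + z1 ^ 2 + z2 ^ 2 + z3 ^ 2) (n := n0 + n1 + n2 + n3)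
              (ν := 55 / 100) (ρ := 148 / 100) hH hHt hT (by linarith only [e0, e1, e2, e3]) hn hS
              (sum_row fun j => (ct j).row064 ((ht j).trans h64)) (by norm_num) (by norm_num))
          · have e0 := c0.lin64 hH hH1 (by linarith only [h01, h12, h23, h64])
            have e1 := c1.lin64 hH hH1 (by linarith only [h12, h23, h64])
            have e2 := c2.lin64 hH hH1 (by linarith only [h23, h64])
            have e3 := c3.lin64 hH hH1 h64.le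
            exact high_concl c0 c1 c2 c3 h01 h12 h23 (by linarith) e0 e1 e2 e3 (piece_high' (Q := z0 ^ 2 + z1 ^ 2 + z2 ^ 2 + z3 ^ 2) (n := n0 + n1 + n2 + n3)
              (ν := 46 / 100) (ρ := 1457 / 1000) hH hHt hT (by linarith only [e0, e1, e2, e3]) hn hS
              (sum_row fun j => (ct j).row_all) (by norm_num) (by norm_num))

end Vale.Agent.P226.CaseB

namespace Vale.Agent.P226.Wk

open CaseB

/-- **Case B**: either the fourth size is at least `0.36`, or it is at least `0.2` and the sum of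
the squares of all sizes but the three largest is at least `0.27`. -/
theorem Aff4.caseB {m : ℕ} {ζ n : Fin (m + 4) → ℝ} {H : ℝ} (h : Aff4 ζ n H) (h2 : 0.4 < ζ 2)
    (hcase : 0.36 ≤ ζ 3 ∨
      (0.2 ≤ ζ 3 ∧ 0.27 ≤ ∑ i : Fin (m + 1), ζ i.succ.succ.succ ^ 2)) :
    ∑ i : Fin m, ζ i.succ.succ.succ.succ ^ 2 = 0 ∧ H = 0 ∧ (ζ 0 = 3 / 4 ∧ n 0 = 1) ∧
      (ζ 1 = 3 / 4 ∧ n 1 = 1) ∧ (ζ 2 = 3 / 4 ∧ n 2 = 1) ∧ (ζ 3 = 3 / 4 ∧ n 3 = 1) := by
  have hs := h.sum
  have hb := h.big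
  rw [sum_split4] at hs hb
  have h01 : ζ 1 ≤ ζ 0 := h.anti (Fin.zero_le _)
  have h12 : ζ 2 ≤ ζ 1 := h.anti (by
    rw [Fin.le_def]
    have e1 : (1 : Fin (m + 4)).val = 1 := rfl
    have e2 : (2 : Fin (m + 4)).val = 2 := rfl
    omega)
  have h23 : ζ 3 ≤ ζ 2 := h.anti (by
    rw [Fin.le_def]
    have e1 : (3 : Fin (m + 4)).val = 3 := rfl
    have e2 : (2 : Fin (m + 4)).val = 2 := rfl
    omega)
  have htail : ∀ i : Fin m, ζ i.succ.succ.succ.succ ≤ ζ 3 := fun i => h.anti (by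
    rw [Fin.le_def]
    simp only [Fin.val_succ]
    have : (3 : Fin (m + 4)).val = 3 := rfl
    omega)
  have q : ∀ i j : Fin (m + 4), ζ j ≤ ζ i → ζ j ^ 2 ≤ ζ i ^ 2 := fun i j hij =>
    pow_le_pow_left₀ (h.nonneg j) hij 2
  have H3 := h.H_le3
  have H2 : H ≤ ζ 2 ^ 2 := H3.trans (q _ _ h23)
  have H1 : H ≤ ζ 1 ^ 2 := H2.trans (q _ _ h12)
  have H0 : H ≤ ζ 0 ^ 2 := H1.trans (q _ _ h01)
  refine CaseB.caseB' (t := fun i : Fin m => ζ i.succ.succ.succ.succ)
    (nt := fun i : Fin m => n i.succ.succ.succ.succ) h.H_nonneg h.H_le h.H_tail h01 h12 h23 htail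
    (h.in0.topCell H0) (h.in1.topCell H1) (h.in2.topCell H2) (h.in3.topCell H3)
    (fun j => (h.vert _).tailCell (h.nonneg _)) hs.le hb (by linarith only [h2]) ?_
  rcases hcase with h5 | ⟨h5, h6⟩
  · left; linarith only [h5]
  · right
    refine ⟨by linarith only [h5], ?_⟩
    rw [Fin.sum_univ_succ] at h6
    have e3 : ζ (Fin.succ (Fin.succ (Fin.succ (0 : Fin (m + 1))))) = ζ 3 := rfl
    rw [e3] at h6
    linarith only [h6]

end Vale.Agent.P226.Wk
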