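import Vale.Agent.P226.H700.Weak3
import Vale.Agent.P226.H700.OpenPos

set_option linter.all false

/-!
# P226: the borderline configuration of case B is not an equality partition

The only configuration with four or more cells which the numerical cases leave is: exactly four
cells, all rescaled moments of length `3/4`, all masses `1`.  Equality in the certificate says that
the first cell is (up to null sets) a round cone, and the first order condition says that it is a
polyhedral cone with three faces.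
-/

open MeasureTheory ProbabilityTheory Set
open scoped ENNReal NNReal RealInnerProductSpace

namespace Vale.Agent.P226.Wk

open K3 Gauss3

variable {E : Type*} [NormedAddCommGroup E] [InnerProductSpace ℝ E] [FiniteDimensional ℝ E]
  [MeasurableSpace E] [BorelSpace E]

namespace Bad

lemma z_ne_zero (B : Bad E) (i : Fin (B.m + 4)) : B.z i ≠ 0 := by
  intro h
  obtain ⟨j, hj⟩ : ∃ j : Fin (B.m + 4), j ≠ i := exists_ne i
  have := B.inner_z_neg hj.symm
  rw [h, inner_zero_left] at this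
  exact lt_irrefl _ this

lemma ζ_pos (B : Bad E) (i : Fin (B.m + 4)) : 0 < B.ζ i :=
  mul_pos sqrt_two_pi_pos (norm_pos_iff.2 (B.z_ne_zero i))

theorem border (B : Bad E) :
    ∑ i : Fin B.m, B.ζ i.succ.succ.succ.succ ^ 2 = 0 ∧ B.η ^ 2 = 0 ∧
      (B.ζ 0 = 3 / 4 ∧ B.nn 0 = 1) ∧ (B.ζ 1 = 3 / 4 ∧ B.nn 1 = 1) ∧
      (B.ζ 2 = 3 / 4 ∧ B.nn 2 = 1) ∧ (B.ζ 3 = 3 / 4 ∧ B.nn 3 = 1) := by
  have h2 : 0.4 < B.ζ 2 := B.span3.caseC
  have a4 := B.aff4
  have a3 := B.aff3 (.of_finrank B.finrank_V2) (.of_finrank B.finrank_V2)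
    (Gauss3.integral_norm_proj_two B.finrank_V2)
  rcases le_total (B.ζ 3) 0.36 with h3 | h3
  · rcases le_total (∑ i : Fin (B.m + 1), B.ζ i.succ.succ.succ ^ 2) 0.27 with hσ | hσ
    · exact (a3.caseA (B.ζ_pos 3) h3 hσ).elim
    · have h4 : 0.2 ≤ B.ζ 3 := by
        by_contra hc
        push Not at hc
        exact absurd (B.span3.caseD hc.le) (not_lt.2 hσ)
      exact a4.caseB h2 (Or.inr ⟨h4, hσ⟩)
  · exact a4.caseB h2 (Or.inl h3)

lemma m_eq (B : Bad E) : B.m = 0 := by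
  by_contra hm
  have h := B.border.1
  have h1 : 0 < ∑ i : Fin B.m, B.ζ i.succ.succ.succ.succ ^ 2 := by
    refine Finset.sum_pos (fun i _ => pow_pos (B.ζ_pos _) 2) ?_
    exact ⟨⟨0, by omega⟩, Finset.mem_univ _⟩
  rw [h] at h1
  exact lt_irrefl _ h1

lemma p_eq_zero (B : Bad E) : B.p = 0 := by
  have h := B.border.2.1
  have h1 : B.η = 0 := pow_eq_zero_iff two_ne_zero |>.1 h
  unfold η at h1
  rcases mul_eq_zero.1 h1 with h2 | h2
  · exact absurd h2 sqrt_two_pi_pos.ne'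
  · exact norm_eq_zero.1 h2

lemma z0_proj (B : Bad E) : B.V.starProjection (B.z 0) = B.z 0 := by
  have h := B.p_eq 0
  rw [B.p_eq_zero] at h
  exact (sub_eq_zero.1 h).symm

/-- The unit vector in the direction of the first moment. -/
noncomputable def b (B : Bad E) : E := ‖B.z 0‖⁻¹ • B.z 0

lemma norm_b (B : Bad E) : ‖B.b‖ = 1 := by
  rw [b, norm_smul, norm_inv, norm_norm, inv_mul_cancel₀ (norm_ne_zero_iff.2 (B.z_ne_zero 0))]

lemma b_proj (B : Bad E) : B.V.starProjection B.b = B.b := by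
  rw [b, map_smul, B.z0_proj]

/-- The function whose sign decides the first cell. -/
noncomputable def g (B : Bad E) (x : E) : ℝ := 2 * ⟪B.b, x⟫ - ‖B.V.starProjection x‖

lemma continuous_g (B : Bad E) : Continuous B.g := by
  unfold g
  fun_prop

lemma integrable_g (B : Bad E) : Integrable B.g (stdGaussian E) := by
  unfold g
  exact ((integrable_inner_stdGaussian B.b).const_mul 2).sub (integrable_norm_starProjection B.V)

/-- The first cell is the set where `g` is nonnegative, up to null sets. -/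
theorem ae_g (B : Bad E) : ∀ᵐ x ∂(stdGaussian E),
    (x ∈ B.A 0 → 0 ≤ B.g x) ∧ (x ∉ B.A 0 → B.g x ≤ 0) := by
  have hm : MeasurableSet (B.A 0) := B.part.meas 0
  have hs := sqrt_two_pi_pos
  -- the integral of the positive part
  have h1 : √(2 * Real.pi) * ∫ x, max (B.g x) 0 ∂(stdGaussian E) ≤ 1 / 2 := by
    have h2 := integral_max_sub_proj B.finrank_V ((2 : ℝ) • B.b) zero_le_one
    simp only [one_mul] at h2
    have e1 : ∀ x : E, ⟪(2 : ℝ) • B.b, x⟫ - ‖B.V.starProjection x‖ = B.g x := by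
      intro x
      rw [inner_smul_left]
      rfl
    simp_rw [e1] at h2
    rw [h2, ← mul_assoc, mul_inv_cancel₀ hs.ne', one_mul, map_smul, B.b_proj, sub_self, norm_zero,
      norm_smul, B.norm_b]
    have hG := G3_le (a := 2) (m := 0) (l := 1) (by norm_num) zero_le_one
    norm_num at hG ⊢
    exact hG
  -- the integral over the first cell
  have h3 : √(2 * Real.pi) * ∫ x in B.A 0, B.g x ∂(stdGaussian E) = 1 / 2 := by
    have e2 : ∫ x in B.A 0, B.g x ∂(stdGaussian E)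
        = 2 * ⟪B.b, fm (B.A 0)⟫ - ∫ x in B.A 0, ‖B.V.starProjection x‖ ∂(stdGaussian E) := by
      rw [inner_fm, ← integral_const_mul]
      unfold g
      exact integral_sub ((integrable_inner_stdGaussian B.b).const_mul 2).integrableOn
        (integrable_norm_starProjection B.V).integrableOn
    have e3 : ⟪B.b, fm (B.A 0)⟫ = ‖B.z 0‖ := by
      have e4 : fm (B.A 0) = B.z 0 := rfl
      rw [e4, b, inner_smul_left, real_inner_self_eq_norm_sq]
      simp only [conj_trivial]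
      have := norm_ne_zero_iff.2 (B.z_ne_zero 0)
      field_simp
    have e5 : √(2 * Real.pi) * ‖B.z 0‖ = 3 / 4 := B.border.2.2.1.1
    have e6 : √(2 * Real.pi) * ∫ x in B.A 0, ‖B.V.starProjection x‖ ∂(stdGaussian E) = 1 :=
      B.border.2.2.1.2
    rw [e2, e3, mul_sub, e6]
    linarith
  have hint : Integrable (fun x => max (B.g x) 0) (stdGaussian E) := B.integrable_g.pos_part
  have hint2 : Integrable ((B.A 0).indicator B.g) (stdGaussian E) := B.integrable_g.indicator hm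
  have hnn : ∀ x, 0 ≤ max (B.g x) 0 - (B.A 0).indicator B.g x := by
    intro x
    by_cases hx : x ∈ B.A 0
    · rw [indicator_of_mem hx]
      exact sub_nonneg.2 (le_max_left _ _)
    · rw [indicator_of_notMem hx, sub_zero]
      exact le_max_right _ _
  have h4 : ∫ x, (max (B.g x) 0 - (B.A 0).indicator B.g x) ∂(stdGaussian E) ≤ 0 := by
    rw [integral_sub hint hint2, integral_indicator hm]
    have h5 : √(2 * Real.pi) * (∫ x, max (B.g x) 0 ∂(stdGaussian E)
        - ∫ x in B.A 0, B.g x ∂(stdGaussian E)) ≤ 0 := by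
      rw [mul_sub, h3]
      linarith
    by_contra hc
    push Not at hc
    exact absurd h5 (not_le.2 (mul_pos hs hc))
  have h6 : ∫ x, (max (B.g x) 0 - (B.A 0).indicator B.g x) ∂(stdGaussian E) = 0 :=
    le_antisymm h4 (integral_nonneg hnn)
  have h7 := (integral_eq_zero_iff_of_nonneg hnn (hint.sub hint2)).1 h6
  filter_upwards [h7] with x hx
  simp only [Pi.zero_apply] at hx
  constructor
  · intro hxA
    rw [indicator_of_mem hxA] at hx
    have := le_max_right (B.g x) 0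
    linarith
  · intro hxA
    rw [indicator_of_notMem hxA] at hx
    have := le_max_left (B.g x) 0
    linarith

end Bad

/-- A round cone with half angle `60` degrees is not a polyhedral cone with at most three faces. -/
theorem no_four {V : Submodule ℝ E} (hV : Module.finrank ℝ V = 3) {n : ℕ} (hn : n ≤ 4)
    {z : Fin n → E} (o : Fin n) {b : E} (hb : b = ‖z o‖⁻¹ • z o)
    (hbV : V.starProjection b = b) (hz0 : z o ≠ 0) (hz : ∀ j, j ≠ o → ⟪z j, z o⟫ < 0)
    (hG : ∀ x, 0 < 2 * ⟪b, x⟫ - ‖V.starProjection x‖ → ∀ j, ⟪z j, x⟫ ≤ ⟪z o, x⟫)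
    (hL : ∀ x, 2 * ⟪b, x⟫ - ‖V.starProjection x‖ < 0 → ∃ j, j ≠ o ∧ ⟪z o, x⟫ ≤ ⟪z j, x⟫) :
    False := by
  have hn0 : 0 < ‖z o‖ := norm_pos_iff.2 hz0
  have hb1 : ‖b‖ = 1 := by
    rw [hb, norm_smul, norm_inv, norm_norm, inv_mul_cancel₀ hn0.ne']
  have hzo : z o = ‖z o‖ • b := by
    rw [hb, smul_smul, mul_inv_cancel₀ hn0.ne', one_smul]
  obtain ⟨B, hB⟩ := exists_basis hV b
  rw [hbV, hb1, one_smul] at hB
  have s3 : (√3 : ℝ) ^ 2 = 3 := Real.sq_sqrt (by norm_num)
  have s3p : (0 : ℝ) < √3 := Real.sqrt_pos.2 (by norm_num)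
  set d : Fin n → ℝ := fun j => ⟪z o, b⟫ - ⟪z j, b⟫ with hd
  have hdpos : ∀ j, j ≠ o → 0 < d j := by
    intro j hj
    have h1 : ⟪z o, b⟫ = ‖z o‖ := by
      nth_rewrite 1 [hzo]
      rw [inner_smul_left, real_inner_self_eq_norm_sq, hb1]
      simp
    have h2 : ⟪z j, b⟫ < 0 := by
      rw [hb, inner_smul_right]
      exact mul_neg_of_pos_of_neg (inv_pos.2 hn0) (hz j hj)
    simp only [hd]
    rw [h1]
    linarith
  have hpx : ∀ y, V.starProjection y = y → ‖y‖ = 1 → ⟪b, y⟫ = 0 → ∀ r : ℝ, 0 ≤ r →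
      ‖V.starProjection (r • b + √3 • y)‖ = √(r ^ 2 + 3) ∧
      ⟪b, r • b + √3 • y⟫ = r ∧ ⟪z o, r • b + √3 • y⟫ = r * ⟪z o, b⟫ := by
    intro y hy hy1 hby r hr
    refine ⟨?_, ?_, ?_⟩
    · rw [map_add, map_smul, map_smul, hbV, hy]
      rw [← Real.sqrt_sq (norm_nonneg (r • b + √3 • y))]
      congr 1
      rw [norm_add_sq_real, norm_smul, norm_smul, inner_smul_left, inner_smul_right, hby, hb1, hy1,
        Real.norm_eq_abs, Real.norm_eq_abs, abs_of_nonneg hr, abs_of_pos s3p]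
      simp only [mul_one, mul_zero, add_zero, s3]
    · rw [inner_add_right, inner_smul_right, inner_smul_right, hby, real_inner_self_eq_norm_sq, hb1]
      ring
    · have h1 : ⟪z o, y⟫ = 0 := by
        rw [hzo, inner_smul_left, hby, mul_zero]
      rw [inner_add_right, inner_smul_right, inner_smul_right, h1]
      ring
  have key1 : ∀ y, V.starProjection y = y → ‖y‖ = 1 → ⟪b, y⟫ = 0 → ∀ j, √3 * ⟪z j, y⟫ ≤ d j := by
    intro y hy hy1 hby j
    by_cases hj : j = o
    · have h1 : ⟪z o, y⟫ = 0 := by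
        rw [hzo, inner_smul_left, hby, mul_zero]
      rw [hj, h1]
      simp only [hd]
      simp
    refine le_of_forall_pos_le_add fun ε hε => ?_
    have hdj := hdpos j hj
    obtain ⟨δ, hδ, hδε⟩ : ∃ δ : ℝ, 0 < δ ∧ δ * d j ≤ ε := ⟨ε / d j, by positivity, by
      field_simp; exact le_rfl⟩
    obtain ⟨p1, p2, p3⟩ := hpx y hy hy1 hby (1 + δ) (by positivity)
    have h2 := hG ((1 + δ) • b + √3 • y) (by
      rw [p1, p2]
      have h3 : √((1 + δ) ^ 2 + 3) < 2 * (1 + δ) := by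
        rw [Real.sqrt_lt' (by positivity)]
        nlinarith only [hδ]
      linarith) j
    rw [p3, inner_add_right, inner_smul_right, inner_smul_right] at h2
    have h4 : √3 * ⟪z j, y⟫ ≤ (1 + δ) * d j := by
      simp only [hd]
      linarith
    linarith
  have key2 : ∀ y, V.starProjection y = y → ‖y‖ = 1 → ⟪b, y⟫ = 0 →
      ∃ j, j ≠ o ∧ d j ≤ √3 * ⟪z j, y⟫ := by
    intro y hy hy1 hby
    have hcl : IsClosed (⋃ j : {j : Fin n // j ≠ o},
        {r : ℝ | (r - 0) * d j ≤ √3 * ⟪z j, y⟫}) := by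
      refine isClosed_iUnion_of_finite fun j => ?_
      exact isClosed_le (by fun_prop) continuous_const
    have hsub : Ioo (0 : ℝ) 1 ⊆ ⋃ j : {j : Fin n // j ≠ o},
        {r : ℝ | (r - 0) * d j ≤ √3 * ⟪z j, y⟫} := by
      intro r hr
      obtain ⟨p1, p2, p3⟩ := hpx y hy hy1 hby r hr.1.le
      obtain ⟨j, hj, hj2⟩ := hL (r • b + √3 • y) (by
        rw [p1, p2]
        have h3 : 2 * r < √(r ^ 2 + 3) := by
          apply Real.lt_sqrt_of_sq_lt
          nlinarith only [hr.1, hr.2]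
        linarith)
      refine mem_iUnion.2 ⟨⟨j, hj⟩, ?_⟩
      rw [p3, inner_add_right, inner_smul_right, inner_smul_right] at hj2
      simp only [hd, mem_setOf_eq]
      linarith
    have h1 := closure_minimal hsub hcl
    rw [closure_Ioo (by norm_num)] at h1
    obtain ⟨j, hj⟩ := mem_iUnion.1 (h1 (right_mem_Icc.2 zero_le_one))
    refine ⟨j.1, j.2, ?_⟩
    simp only [mem_setOf_eq] at hj
    linarith
  -- two different points of the circle cannot belong to the same index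
  have opp : ∀ y j, j ≠ o → d j ≤ √3 * ⟪z j, y⟫ → d j ≤ √3 * ⟪z j, -y⟫ → False := by
    intro y j hj h1 h2
    rw [inner_neg_right] at h2
    have := hdpos j hj
    linarith
  have orth : ∀ y y', V.starProjection y = y → ‖y‖ = 1 → ⟪b, y⟫ = 0 →
      V.starProjection y' = y' → ‖y'‖ = 1 → ⟪b, y'⟫ = 0 → ⟪y, y'⟫ = 0 → ∀ j, j ≠ o →
      d j ≤ √3 * ⟪z j, y⟫ → d j ≤ √3 * ⟪z j, y'⟫ → False := by
    intro y y' a1 a2 a3 b1 b2 b3 hyy j hj h1 h2
    have s2 : (√2 : ℝ) ^ 2 = 2 := Real.sq_sqrt (by norm_num)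
    have s2p : (0 : ℝ) < √2 := Real.sqrt_pos.2 (by norm_num)
    have h3 := key1 ((√2)⁻¹ • (y + y')) (by rw [map_smul, map_add, a1, b1]) (by
      rw [norm_smul, norm_inv, Real.norm_eq_abs, abs_of_pos s2p]
      have h4 : ‖y + y'‖ = √2 := by
        rw [← Real.sqrt_sq (norm_nonneg (y + y'))]
        congr 1
        rw [norm_add_sq_real, hyy, a2, b2]
        norm_num
      rw [h4, inv_mul_cancel₀ s2p.ne']) (by
      rw [inner_smul_right, inner_add_right, a3, b3]
      simp) j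
    rw [inner_smul_right, inner_add_right] at h3
    have hdj := hdpos j hj
    have h4 : √3 * (⟪z j, y⟫ + ⟪z j, y'⟫) ≤ √2 * d j := by
      have h5 := mul_le_mul_of_nonneg_left h3 s2p.le
      have h6 : √2 * (√3 * ((√2)⁻¹ * (⟪z j, y⟫ + ⟪z j, y'⟫)))
          = √3 * (⟪z j, y⟫ + ⟪z j, y'⟫) := by
        field_simp
      rwa [h6] at h5
    have h7 : √2 < 2 := by
      rw [Real.sqrt_lt' (by norm_num)]
      norm_num
    nlinarith
  have hVB : ∀ i, V.starProjection (B i : E) = B i := fun i =>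
    Submodule.starProjection_eq_self_iff.2 (B i).2
  have hVBn : ∀ i, V.starProjection (-(B i : E)) = -(B i : E) := fun i => by
    rw [map_neg, hVB]
  have hon := orthonormal_coe B
  have e1 : ‖(B 1 : E)‖ = 1 := hon.1 1
  have e2 : ‖(B 2 : E)‖ = 1 := hon.1 2
  have e01 : ⟪b, (B 1 : E)⟫ = 0 := by rw [hB]; exact hon.2 (i := 0) (j := 1) (by simp)
  have e02 : ⟪b, (B 2 : E)⟫ = 0 := by rw [hB]; exact hon.2 (i := 0) (j := 2) (by simp)
  have e12 : ⟪(B 1 : E), (B 2 : E)⟫ = 0 := hon.2 (i := 1) (j := 2) (by simp)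
  have e1n : ‖-(B 1 : E)‖ = 1 := by rw [norm_neg, e1]
  have e2n : ‖-(B 2 : E)‖ = 1 := by rw [norm_neg, e2]
  have e01n : ⟪b, -(B 1 : E)⟫ = 0 := by rw [inner_neg_right, e01, neg_zero]
  have e02n : ⟪b, -(B 2 : E)⟫ = 0 := by rw [inner_neg_right, e02, neg_zero]
  have i1 : ⟪(B 1 : E), -(B 2 : E)⟫ = 0 := by rw [inner_neg_right, e12, neg_zero]
  have i2 : ⟪-(B 1 : E), (B 2 : E)⟫ = 0 := by rw [inner_neg_left, e12, neg_zero]
  have i3 : ⟪-(B 1 : E), -(B 2 : E)⟫ = 0 := by rw [inner_neg_left, i1, neg_zero]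
  obtain ⟨j1, n1, q1⟩ := key2 _ (hVB 1) e1 e01
  obtain ⟨j2, n2, q2⟩ := key2 _ (hVBn 1) e1n e01n
  obtain ⟨j3, n3, q3⟩ := key2 _ (hVB 2) e2 e02
  obtain ⟨j4, n4, q4⟩ := key2 _ (hVBn 2) e2n e02n
  have d12 : j1 ≠ j2 := by rintro rfl; exact opp _ _ n1 q1 q2
  have d34 : j3 ≠ j4 := by rintro rfl; exact opp _ _ n3 q3 q4
  have d13 : j1 ≠ j3 := by
    rintro rfl; exact orth _ _ (hVB 1) e1 e01 (hVB 2) e2 e02 e12 _ n1 q1 q3
  have d14 : j1 ≠ j4 := by
    rintro rfl; exact orth _ _ (hVB 1) e1 e01 (hVBn 2) e2n e02n i1 _ n1 q1 q4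
  have d23 : j2 ≠ j3 := by
    rintro rfl; exact orth _ _ (hVBn 1) e1n e01n (hVB 2) e2 e02 i2 _ n2 q2 q3
  have d24 : j2 ≠ j4 := by
    rintro rfl; exact orth _ _ (hVBn 1) e1n e01n (hVBn 2) e2n e02n i3 _ n2 q2 q4
  have hcard : ({o, j1, j2, j3, j4} : Finset (Fin n)).card = 5 := by
    rw [Finset.card_insert_of_notMem, Finset.card_insert_of_notMem, Finset.card_insert_of_notMem,
      Finset.card_insert_of_notMem, Finset.card_singleton]
    · simpa using d34
    · simpa using ⟨d23, d24⟩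
    · simpa using ⟨d12, d13, d14⟩
    · simpa using ⟨n1.symm, n2.symm, n3.symm, n4.symm⟩
  have hle := Finset.card_le_univ ({o, j1, j2, j3, j4} : Finset (Fin n))
  rw [hcard, Fintype.card_fin] at hle
  omega

/-- A configuration which satisfies the first order condition does not exist. -/
theorem Bad.false_of_argmax (B : Bad E)
    (harg : ∀ᵐ x ∂(stdGaussian E), ∀ i, x ∈ B.A i → ∀ j, ⟪B.z j, x⟫ ≤ ⟪B.z i, x⟫) : False := by
  have hae := B.ae_g
  refine no_four B.finrank_V (by rw [B.m_eq]) (z := B.z) 0 rfl B.b_proj (B.z_ne_zero 0)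
    (fun j hj => B.inner_z_neg hj) (fun x hx j => ?_) (fun x hx => ?_)
  · by_contra hc
    push Not at hc
    have hopen : IsOpen ({x : E | 0 < B.g x} ∩ {x : E | ⟪B.z 0, x⟫ < ⟪B.z j, x⟫}) :=
      (isOpen_lt continuous_const B.continuous_g).inter (isOpen_lt (by fun_prop) (by fun_prop))
    refine not_mem_of_null hopen ?_ x ⟨hx, hc⟩
    rw [measure_eq_zero_iff_ae_notMem]
    filter_upwards [hae, harg] with y h1 h2 h3
    have h4 : 0 < B.g y := h3.1
    have h5 : ⟪B.z 0, y⟫ < ⟪B.z j, y⟫ := h3.2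
    by_cases hy : y ∈ B.A 0
    · exact absurd (h2 0 hy j) (not_le.2 h5)
    · exact absurd (h1.2 hy) (not_le.2 h4)
  · by_contra hc
    push Not at hc
    have hopen : IsOpen ({x : E | B.g x < 0} ∩
        ⋂ j : {j : Fin (B.m + 4) // j ≠ 0}, {x : E | ⟪B.z j, x⟫ < ⟪B.z 0, x⟫}) := by
      refine (isOpen_lt B.continuous_g continuous_const).inter ?_
      exact isOpen_iInter_of_finite fun j => isOpen_lt (by fun_prop) (by fun_prop)
    refine not_mem_of_null hopen ?_ x ⟨hx, mem_iInter.2 fun j => hc j.1 j.2⟩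
    rw [measure_eq_zero_iff_ae_notMem]
    filter_upwards [hae, harg] with y h1 h2 h3
    have h4 : B.g y < 0 := h3.1
    have h5 : ∀ j, j ≠ 0 → ⟪B.z j, y⟫ < ⟪B.z 0, y⟫ := fun j hj => mem_iInter.1 h3.2 ⟨j, hj⟩
    have hy : y ∈ ⋃ i, B.A i := by rw [B.part.cover]; exact mem_univ y
    obtain ⟨i, hi⟩ := mem_iUnion.1 hy
    by_cases hi0 : i = 0
    · subst hi0
      exact absurd (h1.1 hi) (not_le.2 h4)
    · exact absurd (h2 i hi 0) (not_le.2 (h5 i hi0))

end Vale.Agent.P226.Wk
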